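import Vale.Agent.P281Z.Gi.Sk
import Vale.Agent.P267.H338.Riem

/-!
# P281Z, block III: the extension of a form in adapted coordinates
-/

open scoped Manifold ContDiff Topology
open Set Filter
open Vale.Agent.P272.K
open Vale.Agent.P277Z (Hol)
open Vale.Agent.P281Z.Gt

noncomputable section

namespace Vale.Agent.P281Z.Gi

namespace ExtbA

theorem an_of_hol {a : ℕ} {g : Cm a → ℂ} {u : Cm a} (h : Hol a g u) : AnalyticAt ℂ g u :=
  h (OpenPartialHomeomorph.refl _) ⟨chart_mem_atlas (Cm a) u, trivial⟩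

theorem an_jw {a : ℕ} {X : Type} {w : Fin a → X → ℂ} {ψ : Cm a → X} {u : Cm a}
    (h : ∀ i, AnalyticAt ℂ (fun u => w i (ψ u)) u) : AnalyticAt ℂ (jw w ψ) u := by
  have h1 : AnalyticAt ℂ (fderiv ℂ fun u i => w i (ψ u)) u := (analyticAt_pi_iff.2 h).fderiv
  have h2 : jw w ψ = fun u => ∑ σ : Equiv.Perm (Fin a), ((Equiv.Perm.sign σ : ℤ) : ℂ) *
      ∏ i, fderiv ℂ (fun u i => w i (ψ u)) u (Pi.single i 1) (σ i) := funext fun u => by
    rw [jw, ← LinearMap.det_toMatrix', Matrix.det_apply']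
    rfl
  rw [h2]
  refine Finset.analyticAt_fun_sum _ fun σ _ => analyticAt_const.mul
    (Finset.analyticAt_fun_prod _ fun i _ => ?_)
  exact analyticAt_pi_iff.1 (((ContinuousLinearMap.apply ℂ (Cm a) (Pi.single i 1)).analyticAt _).comp
    h1) (σ i)

/-- the extension theorem of Riemann, with the values at the points of continuity -/
theorem riemE {E : Type} [NormedAddCommGroup E] [NormedSpace ℂ E] [FiniteDimensional ℂ E]
    {τ g : E → ℂ} {N : E → Prop} {K : ℝ} (hτ : AnalyticAt ℂ τ 0) (h0 : ∃ᶠ u in 𝓝 0, τ u ≠ 0)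
    (h1 : ∀ᶠ u in 𝓝 0, τ u ≠ 0 → N u) (h2 : ∀ᶠ u in 𝓝 0, N u → AnalyticAt ℂ g u ∧ ‖g u‖ ≤ K) :
    ∃ h : E → ℂ, AnalyticAt ℂ h 0 ∧ ∀ᶠ u in 𝓝 0, N u → h u = g u := by
  obtain ⟨r, hr, hB⟩ := Metric.eventually_nhds_iff_ball.1 (hτ.eventually_analyticAt.and (h1.and h2))
  obtain ⟨W, hW, k0, k1, U, hU, k2⟩ := P267.H338.riemann_extension (g := τ) (u := g) (C := K)
    Metric.isOpen_ball (Metric.mem_ball_self hr)
    (fun z hz => (hB z hz).1.differentiableAt.differentiableWithinAt) h0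
    (fun z hz => ((hB z hz.1).2.2 ((hB z hz.1).2.1 hz.2)).1.differentiableAt.differentiableWithinAt)
    fun z hz k => ((hB z hz).2.2 ((hB z hz).2.1 k)).2
  refine ⟨U, P268.analyticAt_of_differentiableOn hW hU k0, ?_⟩
  filter_upwards [hW.mem_nhds k0] with u hu hN
  have k3 : ∃ᶠ z in 𝓝 u, τ z ≠ 0 := fun k => h0 (by
    have k4 := AnalyticOnNhd.eqOn_zero_of_preconnected_of_eventuallyEq_zero
      (fun z hz => (hB z hz).1) (convex_ball (0 : E) r).isPreconnected (k1 hu)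
      (k.mono fun _ => not_not.1)
    filter_upwards [Metric.ball_mem_nhds 0 hr] with z hz using not_not.2 (k4 hz))
  exact tendsto_nhds_unique_of_frequently_eq (hU.continuousOn.continuousAt (hW.mem_nhds hu))
    ((hB u (k1 hu)).2.2 hN).1.continuousAt
    ((k3.and_eventually (hW.eventually_mem hu)).mono fun z hz => k2 z hz.2 hz.1)

theorem freq_pi {n : ℕ} {E : Type} [NormedAddCommGroup E] {P : Fin n → E → Prop}
    (h : ∀ j, ∃ᶠ u in 𝓝 0, P j u) : ∃ᶠ u : Fin n → E in 𝓝 0, ∀ j, P j (u j) :=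
  frequently_iff.2 fun {U} hU => by
    obtain ⟨r, hr, k⟩ := Metric.mem_nhds_iff.1 hU
    choose u h1 h2 using fun j => frequently_iff.1 (h j) (Metric.ball_mem_nhds 0 hr)
    exact ⟨u, k (mem_ball_zero_iff.2 ((pi_norm_lt_iff hr).2 fun j =>
      mem_ball_zero_iff.1 (h1 j))), h2⟩

variable {p a m : ℕ} {M : Fb (p + a) p} {C : NS M} (Z : Pcs C m) {x : M.X.X}

theorem near (hx : M.f x ∉ C.Q) : ∀ᶠ u in 𝓝 (0 : Cm a), HolA a (p + a) (Z.ψ x (M.f x)) u ∧
    M.f (Z.ψ x (M.f x) u) = M.f x :=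
  (((Continuous.prodMk_right (M.f x)).tendsto 0).eventually (Z.hol x hx)).mono
    fun _ h => ⟨h.1, h.2.1⟩

/-- a function on the piece whose zero set contains the bad points -/
theorem exists_tau (hx : M.f x ∉ C.Q) : ∃ τ : Cm a → ℂ, AnalyticAt ℂ τ 0 ∧
    (∃ᶠ u in 𝓝 0, τ u ≠ 0) ∧ ∀ᶠ u in 𝓝 0, τ u ≠ 0 → Z.ψ x (M.f x) u ∉ C.S := by
  obtain ⟨k, g, h1, h2⟩ := C.thinS.1 x
  have h3 := (near Z hx).self_of_nhds.1
  rw [← Z.val x hx] at h1 h2
  have h4 := h3.cont.eventually h2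
  have h5 : ∃ᶠ u in 𝓝 (0 : Cm a), Z.ψ x (M.f x) u ∉ C.S := frequently_iff.2 fun {U} hU => by
    obtain ⟨x', ⟨a1, a2⟩, u, a3, a4⟩ := ((mem_closure_iff_frequently.1 (C.fib x hx)).and_eventually
      (Z.cov x hx _ (prod_mem_nhds univ_mem hU))).exists
    exact ⟨u, a3.2, by rw [← a1, a4]; exact a2⟩
  obtain ⟨i, hi⟩ : ∃ i, ∃ᶠ u in 𝓝 (0 : Cm a), g i (Z.ψ x (M.f x) u) ≠ 0 := by
    by_contra hc
    simp only [not_exists, not_frequently, not_not] at hc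
    exact h5 ((h4.and (eventually_all.2 hc)).mono fun u hu => not_not.2 (hu.1.2 hu.2))
  exact ⟨_, an_of_hol (h3.hol (h1 i)), hi, h4.mono fun u hu k k' => k (hu.1 k' i)⟩

end ExtbA

open ExtbA in
/-- **EXTB** -/
theorem extb_of (hB : BSP) (hA : ANP) : EXTB := by
  rintro p a m n k M C Z F ⟨y, x⟩ - hF hq hQ
  have hx : ∀ j, M.f (x j) ∉ C.Q := fun j => (hq j).symm ▸ hQ
  have h1 : ∀ j, ∀ᶠ u in 𝓝 (0 : Cm a), HolA a (p + a) (Z.ψ (x j) y) u ∧
      M.f (Z.ψ (x j) y u) = y := fun j => (show M.f (x j) = y from hq j) ▸ near Z (hx j)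
  have h2 : ∀ j, ∃ τ : Cm a → ℂ, AnalyticAt ℂ τ 0 ∧ (∃ᶠ u in 𝓝 0, τ u ≠ 0) ∧
      ∀ᶠ u in 𝓝 0, τ u ≠ 0 → Z.ψ (x j) y u ∉ C.S := fun j =>
    (show M.f (x j) = y from hq j) ▸ exists_tau Z (hx j)
  choose τ t1 t2 t3 using h2
  obtain ⟨K, hK⟩ := hB p a m n k M C Z F (y, x) hF.bs hq hQ
  have hp : ∀ (j : Fin n) (u : Fin n → Cm a), AnalyticAt ℂ (fun u' : Fin n → Cm a => u' j) u :=
    fun j u => analyticAt_pi_iff.1 analyticAt_id j
  have he : ∀ {P : Fin n → Cm a → Prop}, (∀ j, ∀ᶠ u in 𝓝 0, P j u) →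
      ∀ᶠ u : Fin n → Cm a in 𝓝 0, ∀ j, P j (u j) := fun h =>
    eventually_all.2 fun j => (hp j 0).continuousAt.eventually (h j)
  have t4 : ∀ j, AnalyticAt ℂ (fun u : Fin n → Cm a => τ j (u j)) 0 := fun j =>
    AnalyticAt.comp (g := τ j) (f := fun u : Fin n → Cm a => u j) (t1 j) (hp j 0)
  refine riemE (τ := fun u => ∏ j, τ j (u j)) (K := K) (N := fun u => Z.pq x y u ∈ C.N n)
    (Finset.analyticAt_fun_prod _ fun j _ => t4 j)
    ((freq_pi t2).mono fun u hu => Finset.prod_ne_zero_iff.2 fun j _ => hu j) ?_ ?_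
  · filter_upwards [he h1, he t3] with u k1 k2 k3
    exact ⟨fun j => (k1 j).2, hQ, fun j => k2 j (Finset.prod_ne_zero_iff.1 k3 j (Finset.mem_univ j))⟩
  · filter_upwards [he fun j => (h1 j).eventually_nhds,
      ((Continuous.prodMk_right y).tendsto 0).eventually hK] with u k1 k2 k3
    refine ⟨(hA p a n M F y (fun j => Z.ψ (x j) y) u (fun j => (k1 j).self_of_nhds.1)
      (fun j => (k1 j).mono fun _ h => h.2) (hF.hol _ k3)).mul
      (Finset.analyticAt_fun_prod _ fun j _ => AnalyticAt.pow (AnalyticAt.comp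
        (g := wt C m (Z.ψ (x j) y) (Z.d (x j))) ?_ (hp j u)) k), ?_⟩
    · refine ((an_jw fun i => an_of_hol ((k1 j).self_of_nhds.1.hol
        ((C.mr i).hol _ (k3.2.2 j)))).pow m).mul (Finset.analyticAt_fun_prod _ fun i _ => ?_)
      exact (analyticAt_pi_iff.1 analyticAt_id i).pow _
    · simp only [norm_mul, norm_prod, norm_pow]
      exact k2 k3

end Vale.Agent.P281Z.Gi
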