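import Vale.Agent.P281Z.Gi.Sk
import Vale.Agent.P281Z.Mf.Adapt

/-!
# P281Z, block III, the integral bounds: adapted coordinates on the fibres
-/

open scoped Manifold ContDiff Topology
open Set Filter Function
open Vale.Agent.P272.K
open Vale.Agent.P277Z (Hol jd at_chart)
open Vale.Agent.P277Z.Slc (Ind LEq)
open Vale.Agent.P281Z.Gt

noncomputable section

namespace Vale.Agent.P281Z.Gi

namespace PcH

variable {p a : ℕ}

/-- the inclusion of the second block -/
def J (p a : ℕ) : Cm a →L[ℂ] Cm (p + a) := LinearMap.toContinuousLinearMap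
  { toFun := fun u => Fin.append (0 : Cm p) u
    map_add' := fun u v => funext fun k => by cases k using Fin.addCases <;> simp
    map_smul' := fun c u => funext fun k => by cases k using Fin.addCases <;> simp }

theorem J_apply (u : Cm a) : J p a u = Fin.append (0 : Cm p) u := rfl

theorem app_eq (t : Cm p) (u₀ : Cm a) :
    (fun u => Fin.append t (u + u₀)) = fun u => J p a u + Fin.append t u₀ :=
  funext fun u => funext fun k => by cases k using Fin.addCases <;> simp [J_apply]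

theorem det_tri (L : Cm (p + a) →ₗ[ℂ] Cm (p + a)) (B : Cm a →ₗ[ℂ] Cm a)
    (h1 : ∀ v b, L v (Fin.castAdd a b) = v (Fin.castAdd a b))
    (h2 : ∀ u i, L (J p a u) (Fin.natAdd p i) = B u i) : LinearMap.det L = LinearMap.det B := by
  rw [← LinearMap.det_toMatrix' L, ← LinearMap.det_toMatrix' B,
    ← Matrix.det_submatrix_equiv_self finSumFinEquiv,
    ← Matrix.fromBlocks_toBlocks ((LinearMap.toMatrix' L).submatrix finSumFinEquiv finSumFinEquiv)]
  have ne : ∀ (b : Fin p) (i : Fin a), Fin.castAdd a b ≠ Fin.natAdd p i := fun b i h => by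
    have := congrArg Fin.val h
    simp at this
    omega
  have e1 : ((LinearMap.toMatrix' L).submatrix finSumFinEquiv finSumFinEquiv).toBlocks₁₁ = 1 := by
    ext b b'
    simp [Matrix.toBlocks₁₁, h1, Matrix.one_apply, Pi.single_apply]
  have e2 : ((LinearMap.toMatrix' L).submatrix finSumFinEquiv finSumFinEquiv).toBlocks₁₂ = 0 := by
    ext b i
    simp [Matrix.toBlocks₁₂, h1, ne]
  have e3 : ((LinearMap.toMatrix' L).submatrix finSumFinEquiv finSumFinEquiv).toBlocks₂₂ =
      LinearMap.toMatrix' B := by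
    ext i i'
    have : J p a (Pi.single i' 1) = Pi.single (Fin.natAdd p i') 1 := funext fun k => by
      cases k using Fin.addCases <;> simp [J_apply, Pi.single_apply, ne]
    simp [Matrix.toBlocks₂₂, ← h2, this]
  rw [e1, e2, e3, Matrix.det_fromBlocks_zero₁₂, Matrix.det_one, one_mul]

/-- the Jacobian determinant of the inverse coordinates -/
def Dv {n : ℕ} {X : Type} [TopologicalSpace X] (c e : Chart n X) (v : Cm n) : ℂ :=
  LinearMap.det (fderiv ℂ (fun v => e (c.symm v)) v : Cm n →ₗ[ℂ] Cm n)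

variable {M : Fb (p + a) p}

theorem key {w : Fin a → M.X.X → ℂ} {c e : Chart (p + a) M.X.X} {e' : Chart p M.Y.X}
    (hc : Co (p + a) c) (h1 : ∀ y ∈ c.source, ∀ b, c y (Fin.castAdd a b) = e' (M.f y) b)
    {t : Cm p} {u u₀ : Cm a} (hv : Fin.append t (u + u₀) ∈ c.target)
    (he : At e (c.symm (Fin.append t (u + u₀))))
    (hw : ∀ i, Hol (p + a) (w i) (c.symm (Fin.append t (u + u₀)))) :
    jw w (fun u => c.symm (Fin.append t (u + u₀))) u =
      jdw w e e' (c.symm (Fin.append t (u + u₀))) * Dv c e (Fin.append t (u + u₀)) := by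
  have hJ : HasFDerivAt (fun u => Fin.append t (u + u₀)) (J p a) u := by
    rw [app_eq]
    exact (J p a).hasFDerivAt.add_const _
  set v := Fin.append t (u + u₀) with hvv
  set g : Fin (p + a) → M.X.X → ℂ := Fin.append (fun b x => e' (M.f x) b) w with hg
  have g1 : ∀ k, Hol (p + a) (g k) (c.symm v) := fun k => by
    cases k using Fin.addCases with
    | left b =>
      refine ((hc.an _ (c.map_target hv)).hol (Fin.castAdd a b)).congr ?_
      filter_upwards [c.open_source.mem_nhds (c.map_target hv)] with y hy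
      rw [h1 y hy, hg, Fin.append_left]
    | right i => simpa only [hg, Fin.append_right] using hw i
  have g2 := ((AnV.pi (F := fun y k => g k y) g1 e he).differentiableAt.hasFDerivAt.comp v
    (hc.inv v hv e he).differentiableAt.hasFDerivAt).congr_of_eventuallyEq
      (f₁ := fun v k => g k (c.symm v)) (by
        filter_upwards [(c.continuousAt_symm hv).eventually (at_near he)] with z hz
        simp only [comp_apply, hz.left_inv])
  set L := (fderiv ℂ (fun z k => g k (e.symm z)) (e (c.symm v))).comp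
    (fderiv ℂ (fun v => e (c.symm v)) v) with hL
  have g3 : HasFDerivAt (fun u i => w i (c.symm (Fin.append t (u + u₀))))
      (ContinuousLinearMap.pi fun i => ((ContinuousLinearMap.proj (Fin.natAdd p i)).comp L).comp
        (J p a)) u := hasFDerivAt_pi.2 fun i => by
    simpa only [hg, Fin.append_right, comp_def] using
      (hasFDerivAt_pi'.1 g2 (Fin.natAdd p i)).comp u hJ
  rw [jw, g3.fderiv, jdw, jd, Dv, ← LinearMap.det_comp]
  refine (det_tri (L : Cm (p + a) →ₗ[ℂ] Cm (p + a)) _ (fun z b => ?_) fun _ _ => rfl).symm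
  refine DFunLike.congr_fun ((hasFDerivAt_pi'.1 g2 (Fin.castAdd a b)).unique
    ((ContinuousLinearMap.proj (R := ℂ) (φ := fun _ : Fin (p + a) => ℂ)
      (Fin.castAdd a b)).hasFDerivAt.congr_of_eventuallyEq ?_)) z
  filter_upwards [c.open_target.mem_nhds hv] with z hz
  rw [hg, Fin.append_left, ← h1 _ (c.map_target hz), c.right_inv hz]
  rfl

/-- coordinates which are adapted to the map and to the boundary -/
theorem exists_c {α : Type} [Fintype α] {ζ : α → M.X.X → ℂ} {e' : Chart p M.Y.X} {x : M.X.X}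
    (hi : Ind (p + a) (Sum.elim ζ fun (b : Fin p) z => e' (M.f z) b) x) :
    ∃ (c : Chart (p + a) M.X.X) (j : α → Fin a), Co (p + a) c ∧ x ∈ c.source ∧ Injective j ∧
      (∀ y ∈ c.source, ∀ b, c y (Fin.castAdd a b) = e' (M.f y) b) ∧
      ∀ y ∈ c.source, ∀ l, c y (Fin.natAdd p (j l)) = ζ l y := by
  obtain ⟨c, j₀, h1, h2, -, h4, h5⟩ := exists_chart hi univ_mem
  obtain ⟨j⟩ : Nonempty (α ↪ Fin a) := Function.Embedding.nonempty_of_card_le (by
    have := ind_le hi
    simp at this ⊢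
    omega)
  obtain ⟨σ, hσ⟩ := Equiv.Perm.exists_extending_pair
    (fun s : α ⊕ Fin p => finSumFinEquiv (s.map j id).swap) j₀
    (finSumFinEquiv.injective.comp (Sum.swap_leftInverse.injective.comp
      (j.injective.sumMap injective_id))) h4
  refine ⟨_, j, h1.trans (LinearEquiv.funCongrLeft ℂ ℂ σ).toContinuousLinearEquiv, h2, j.injective,
    fun y hy b => ?_, fun y hy l => ?_⟩
  · exact (congrArg (c y) (hσ (.inr b))).trans (h5 y hy (.inr b))
  · exact (congrArg (c y) (hσ (.inl l))).trans (h5 y hy (.inl l))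

theorem one (C : NS M) {m : ℕ} (hM : Std M m) {x : M.X.X} (hx : M.f x ∉ C.Q) :
    ∃ (ψ : M.Y.X → Cm a → M.X.X) (d : Fin a → ℕ), (∀ i, d i < m) ∧ ψ (M.f x) 0 = x ∧
      ContinuousAt (fun c : M.Y.X × Cm a => ψ c.1 c.2) (M.f x, 0) ∧
      (∀ᶠ c in 𝓝 (M.f x, (0 : Cm a)), HolA a (p + a) (ψ c.1) c.2 ∧
        M.f (ψ c.1 c.2) = c.1 ∧ (ψ c.1 c.2 ∉ C.S → wt C m (ψ c.1) d c.2 ≠ 0)) ∧
      (∀ W ∈ 𝓝 (M.f x, (0 : Cm a)), ∀ᶠ x' in 𝓝 x, ∃ u, (M.f x', u) ∈ W ∧ ψ (M.f x') u = x') ∧
      ∃ (ζ : M.κ → M.X.X → ℂ) (K : ℝ), (∀ l, LEq (p + a) (M.G l) x (ζ l)) ∧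
        ∀ᶠ c in 𝓝 (M.f x, (0 : Cm a)), ψ c.1 c.2 ∉ C.S → ‖wt C m (ψ c.1) d c.2‖ ≤
          K * (‖jdw C.w (chartAt (Cm (p + a)) x) (chartAt (Cm p) (M.f x)) (ψ c.1 c.2)‖ ^ m *
            ∏ l, ‖ζ l (ψ c.1 c.2)‖ ^ ((m : ℝ) * M.δ l)) := by
  classical
  obtain ⟨ζ, h1, -⟩ := hM.ok.snc x
  have he := at_chart (n := p + a) x
  have he' := at_chart (n := p) (M.f x)
  set e := chartAt (Cm (p + a)) x
  set e' := chartAt (Cm p) (M.f x)
  obtain ⟨c, j, c1, c2, c3, c4, c5⟩ := exists_c (C.reg _ hx x rfl e' he' ζ h1)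
  choose z hz using hM.itg
  have hf := hM.ok.fibn.hol.cont
  have m0 : (0 : ℚ) < m := by exact_mod_cast lt_of_lt_of_le two_pos hM.two
  set u₀ : Cm a := fun i => c x (Fin.natAdd p i) with hu₀
  have ap : ∀ y ∈ c.source, Fin.append (e' (M.f y)) (fun i => c y (Fin.natAdd p i)) = c y :=
    fun y hy => funext fun k => by cases k using Fin.addCases <;> simp [c4 y hy]
  set P : M.Y.X × Cm a → Cm (p + a) := fun q => Fin.append (e' q.1) (q.2 + u₀) with hP
  have P0 : P (M.f x, 0) = c x := by simp only [hP, zero_add]; exact ap x c2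
  have P1 : ContinuousAt P (M.f x, 0) := (Fin.appendHomeomorph (X := ℂ) p a).continuous.continuousAt.comp
    (f := fun q : M.Y.X × Cm a => (e' q.1, q.2 + u₀))
    (((e'.continuousAt he'.2).comp (f := Prod.fst) continuousAt_fst).prodMk
      (continuousAt_snd.add continuousAt_const))
  have P2 : P (M.f x, 0) ∈ c.target := P0 ▸ c.map_source c2
  have P3 : c.symm (P (M.f x, 0)) = x := by rw [P0, c.left_inv c2]
  have P4 : ContinuousAt (fun q => c.symm (P q)) (M.f x, 0) := (c.continuousAt_symm P2).comp P1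
  have P5 : Tendsto (fun q => c.symm (P q)) (𝓝 (M.f x, 0)) (𝓝 x) := by
    simpa only [ContinuousAt, P3] using P4
  have P6 := P1.eventually (c.open_target.mem_nhds P2)
  set d : Fin a → ℕ := extend j (fun l => z l) 0 with hd
  have W : ∀ q, P q ∈ c.target → At e (c.symm (P q)) → c.symm (P q) ∉ C.S →
      wt C m (fun u => c.symm (P (q.1, u))) d q.2 = (jdw C.w e e' (c.symm (P q)) * Dv c e (P q)) ^ m *
        ∏ l : {l // x ∈ M.G l}, ζ l (c.symm (P q)) ^ z l := fun q q1 q2 q3 => by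
    refine congrArg₂ (· * ·) (congrArg (· ^ m) (key c1 c4 q1 q2 fun i => (C.mr i).hol _ q3))
      (Fintype.prod_of_injective j c3 _ _ (fun i hi => ?_) fun l => ?_).symm
    · rw [hd, extend_apply' _ _ _ hi, Pi.zero_apply, pow_zero]
    · rw [hd, c3.extend_apply, ← c5 _ (c.map_target q1), c.right_inv q1]
      simp [hP, hu₀, c5 x c2, (h1 l).mem.2 l.2]
  refine ⟨fun y u => c.symm (P (y, u)), d, fun i => ?_, P3, P4, ?_, fun W hW => ?_, ζ, ?_⟩
  · by_cases hi : ∃ l, j l = i
    · obtain ⟨l, rfl⟩ := hi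
      have k : M.δ l < 1 := (hM.ok.bdry l).2.lt_of_ne fun k => hx (C.klt l k x l.2)
      rw [hd, c3.extend_apply]
      exact_mod_cast (hz l ▸ mul_lt_of_lt_one_right m0 k : (z l : ℚ) < m)
    · rw [hd, extend_apply' _ _ _ hi]
      exact_mod_cast m0
  · filter_upwards [P6, P5.eventually (at_near he),
      P5.eventually (hf.continuousAt.eventually (at_near he')),
      (continuousAt_fst (p := (M.f x, (0 : Cm a)))).eventually (at_near he'),
      P5.eventually (eventually_all.2 fun l => (h1 l).1)] with q q1 q2 q3 q4 q5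
    refine ⟨c1.holA (F := fun u => P (q.1, u)) ?_ q1, e'.injOn q3.2 q4.2 (funext fun b => ?_),
      fun q6 => ?_⟩
    · refine (anV_chart (at_chart q.2)).cmp (G := fun u => Fin.append (e' q.1) (u + u₀)) ?_
      rw [app_eq]
      exact ((J p a).analyticAt _).add analyticAt_const
    · rw [← c4 _ (c.map_target q1), c.right_inv q1]
      exact Fin.append_left _ _ _
    · rw [W q q1 q2 q6]
      refine mul_ne_zero (pow_ne_zero _ (mul_ne_zero (C.et _ q6 e e' q2 q3) fun k => ?_))
        (Finset.prod_ne_zero_iff.2 fun l _ => pow_ne_zero _ fun k => C.offG _ q6 l ((q5 l).1 k))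
      exact LinearMap.det_eq_zero_iff_ker_ne_bot.1 k (LinearMap.ker_eq_bot.2 (c1.inj q1 q2))
  · have k : ContinuousAt (fun y => (M.f y, (fun i => c y (Fin.natAdd p i)) - u₀)) x :=
      hf.continuousAt.prodMk ((continuousAt_pi.2 fun i =>
        continuousAt_pi.1 (c.continuousAt c2) _).sub continuousAt_const)
    filter_upwards [k.eventually (show W ∈ 𝓝 (M.f x, u₀ - u₀) by rwa [sub_self]),
      c.open_source.mem_nhds c2] with y k1 k2
    refine ⟨_, k1, ?_⟩
    simp only [hP, sub_add_cancel]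
    rw [ap y k2, c.left_inv k2]
  · set B : M.Y.X × Cm a → ℂ := fun q => ∏ l : {l // x ∉ M.G l}, ζ l (c.symm (P q)) ^ z l with hB
    have B1 : ContinuousAt B (M.f x, 0) := tendsto_finsetProd _ fun l _ =>
      (ContinuousAt.comp (g := ζ l) (P3.symm ▸ (h1 l).hol.cont) P4).pow _
    have B2 : B (M.f x, 0) ≠ 0 := Finset.prod_ne_zero_iff.2 fun l _ => pow_ne_zero _ fun k =>
      l.2 ((h1 l).mem.1 (by rwa [P3] at k))
    have D1 : ContinuousAt (fun q => Dv c e (P q)) (M.f x, 0) :=
      (ContinuousLinearMap.continuous_det.continuousAt.comp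
        (c1.inv _ P2 e (P3.symm ▸ he)).fderiv.continuousAt).comp P1
    refine ⟨‖Dv c e (P (M.f x, 0)) ^ m / B (M.f x, 0)‖ + 1, h1, ?_⟩
    filter_upwards [P6, P5.eventually (at_near he), B1.eventually_ne B2,
      ((D1.pow m).div B1 B2).norm.eventually (gt_mem_nhds (lt_add_one _))] with q q1 q2 q3 q4 q5
    have k1 : ∀ l, (m : ℝ) * M.δ l = z l := fun l => by exact_mod_cast hz l
    have k2 : wt C m (fun u => c.symm (P (q.1, u))) d q.2 = Dv c e (P q) ^ m / B q *
        (jdw C.w e e' (c.symm (P q)) ^ m * ∏ l, ζ l (c.symm (P q)) ^ z l) := by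
      rw [W q q1 q2 q5, ← Fintype.prod_subtype_mul_prod_subtype (fun l => x ∈ M.G l)]
      change _ = _ * (_ * (_ * B q))
      field_simp
      ring
    simp only [k1, Real.rpow_natCast]
    rw [k2, norm_mul, norm_mul, norm_pow, norm_prod]
    simp only [norm_pow]
    exact mul_le_mul_of_nonneg_right q4.le (by positivity)

end PcH

/-- **PIECE**: adapted coordinates exist -/
theorem piece : PIECE := by
  intro p a m M C hM
  classical
  choose ψ d h using fun x (hx : M.f x ∉ C.Q) => PcH.one C hM hx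
  refine ⟨⟨fun x => if hx : M.f x ∉ C.Q then ψ x hx else fun _ _ => x,
    fun x => if hx : M.f x ∉ C.Q then d x hx else 0, ?_, ?_, ?_, ?_, ?_, ?_⟩⟩ <;> intro x hx <;>
    simp only [dif_pos hx]
  exacts [(h x hx).1, (h x hx).2.1, (h x hx).2.2.1, (h x hx).2.2.2.1, (h x hx).2.2.2.2.1,
    (h x hx).2.2.2.2.2]

/-- **BSP**: the pole bound in adapted coordinates -/
theorem bsp : BSP := by
  intro p a m n k M C Z F q hF hq hQ
  have h0 : ∀ j, M.f (q.2 j) ∉ C.Q := fun j => (hq j).symm ▸ hQ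
  choose ζ K h1 h2 using fun j => Z.cmp (q.2 j) (h0 j)
  obtain ⟨K₀, h3⟩ := hF q hq hQ (fun j => chartAt _ (q.2 j)) (chartAt _ q.1) ζ
    (fun _ => at_chart _) (at_chart _) h1
  have t1 : ∀ j, Tendsto (fun c : M.Y.X × (Fin n → Cm a) => (c.1, c.2 j)) (𝓝 (q.1, 0))
      (𝓝 (M.f (q.2 j), 0)) := fun j => by
    rw [hq j]
    exact (continuous_fst.prodMk ((continuous_apply j).comp continuous_snd)).continuousAt
  have t2 : Tendsto (fun c : M.Y.X × (Fin n → Cm a) => Z.pq q.2 c.1 c.2) (𝓝 (q.1, 0)) (𝓝 q) :=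
    Tendsto.prodMk_nhds continuousAt_fst (tendsto_pi_nhds.2 fun j => by
      simpa only [Z.val _ (h0 j), comp_def] using (Z.cont _ (h0 j)).tendsto.comp (t1 j))
  refine ⟨(∏ j, max (K j) 0 ^ k) * K₀, ?_⟩
  filter_upwards [t2.eventually h3, eventually_all.2 fun j => (t1 j).eventually (h2 j)]
    with c c1 c2 c3
  refine le_trans ?_ (mul_le_mul_of_nonneg_left (c1 c3 fun j => C.offG _ (c3.2.2 j))
    (by positivity))
  rw [mul_left_comm, ← Finset.prod_mul_distrib]
  refine mul_le_mul_of_nonneg_left (Finset.prod_le_prod (fun _ _ => by positivity) fun j _ => ?_)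
    (norm_nonneg _)
  refine (pow_le_pow_left₀ (norm_nonneg _) ((c2 j (c3.2.2 j)).trans
    (mul_le_mul_of_nonneg_right (le_max_left _ 0) (by positivity))) k).trans_eq ?_
  rw [mul_pow, mul_pow, ← pow_mul, ← Finset.prod_pow, hq j]
  refine congrArg₂ (· * ·) rfl (congrArg₂ (· * ·) rfl (Finset.prod_congr rfl fun l _ => ?_))
  rw [← Real.rpow_mul_natCast (norm_nonneg _), Nat.cast_mul, mul_right_comm]
  rfl

end Vale.Agent.P281Z.Gi
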