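import Vale.Agent.P281Z.Gi.Sk

/-!
# P281Z, block III: fibre integrals of flat functions are constant
-/

set_option linter.all false

open scoped Manifold ContDiff Topology ENNReal
open Set Filter MeasureTheory
open Vale.Agent.P272.K Vale.Agent.P285.H281.FD
open Vale.Agent.P281Z.Gt

noncomputable section

namespace Vale.Agent.P281Z.Gi

namespace Cnst

theorem lc {X β : Type} [TopologicalSpace X] {s : Set X} (hs : IsPreconnected s) {f : X → β}
    (h : ∀ x ∈ s, ∀ᶠ y in 𝓝 x, f y = f x) {x y : X} (hx : x ∈ s) (hy : y ∈ s) : f x = f y := by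
  letI : TopologicalSpace β := ⊥
  haveI := discreteTopology_bot β
  refine hs.constant (fun x hx => ContinuousAt.continuousWithinAt ?_) hx hy
  rw [ContinuousAt, nhds_discrete β, tendsto_pure]
  exact h x hx

theorem tsum_fib {I Y : Type} {P : Y → Prop} (φ : I → Y) (hi : Function.Injective φ)
    (hr : ∀ y, P y ↔ ∃ i, φ i = y) (F : Y → ℝ≥0∞) : ∑' x : {x // P x}, F x = ∑' i, F (φ i) :=
  ((Equiv.ofBijective (fun i => (⟨φ i, (hr _).2 ⟨i, rfl⟩⟩ : {x // P x}))
    ⟨fun _ _ e => hi (congrArg Subtype.val e),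
      fun x => ((hr _).1 x.2).imp fun _ e => Subtype.ext e⟩).tsum_eq fun x => F x.1).symm

theorem mem_iff {p a n : ℕ} {M : Fb (p + a) p} {C : NS M} {y : M.Y.X} (hy : y ∉ C.Q)
    {o : Fin n → Cm a} {x : Fin n → M.X.X} :
    ((y, x) ∈ C.N n ∧ ∀ j i, C.w i (x j) = o j i) ↔ ∀ j, x j ∉ C.S ∧ fw C (x j) = (y, o j) :=
  ⟨fun h j => ⟨h.1.2.2 j, Prod.ext (h.1.1 j) (funext (h.2 j))⟩, fun h =>
    ⟨⟨fun j => congrArg Prod.fst (h j).2, hy, fun j => (h j).1⟩,
      fun j i => congrFun (congrArg Prod.snd (h j).2) i⟩⟩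

end Cnst

open Cnst

theorem cnst_of (h : COVW) : CNST := by
  intro p a M C hM
  obtain ⟨Q₁, B, hQ, hB, hae, hs⟩ := h p a M C hM
  refine ⟨Q₁, hQ, ?_⟩
  rintro n v z F hF _ hy _ hy' h1 h1' ⟨k, V, g, t, t', hc, hg, rfl, rfl, hz⟩
  have ae : ∀ y ∉ Q₁, ∀ᵐ o : Fin n → Cm a, ∀ j, y ∉ B (o j) := fun y hy =>
    ae_all_iff.2 fun j => (Measure.tendsto_eval_ae_ae (μ := fun _ : Fin n => (volume : Measure (Cm a)))
      (i := j)).eventually (hae y hy)
  rw [I_eq, I_eq]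
  refine lintegral_congr_ae ?_
  filter_upwards [ae _ h1, ae _ h1'] with o ho ho'
  have nb : ∀ {y}, y ∉ C.Q ∪ ⋃ j, B (o j) ↔ y ∉ C.Q ∧ ∀ j, y ∉ B (o j) := by simp
  have hT := Thin.pre_of_ex (C.thinQ.an.union (An.iUnion fun j => hB (o j))) hg
    ⟨t, nb.2 ⟨hy, ho⟩⟩
  refine lc hT.preconn (f := fun s => Sm C F (g s) o) (fun s₀ h₀ => ?_) (nb.2 ⟨hy, ho⟩)
    (nb.2 ⟨hy', ho'⟩)
  obtain ⟨hq, hb⟩ := nb.1 h₀
  choose d σ hσ hev using fun j => hs (o j) (g s₀) (hb j)
  have cg : ContinuousAt g s₀ := hg.cont.continuousAt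
  have e1 : ∀ᶠ s in 𝓝 s₀, g s ∉ C.Q := cg.eventually (C.thinQ.closed.isOpen_compl.mem_nhds hq)
  have e2 := cg.eventually (eventually_all.2 hev)
  let φ (s : V.X) (i : (j : Fin n) → Fin (d j)) : Fin n → M.X.X := fun j => σ j (i j) (g s)
  have e3 : ∀ᶠ s in 𝓝 s₀, Function.Injective (φ s) ∧ ∀ x,
      ((g s, x) ∈ C.N n ∧ ∀ j i, C.w i (x j) = o j i) ↔ ∃ i, φ s i = x := by
    filter_upwards [e1, e2] with s k1 k2
    refine ⟨fun i i' e => funext fun j => (k2 j).1 (congrFun e j), fun x => (mem_iff k1).trans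
      ⟨fun k => ?_, fun ⟨i, e⟩ j => (k2 j).2.le ⟨i j, congrFun e j⟩⟩⟩
    choose i hi using fun j => (k2 j).2.ge (k j)
    exact ⟨i, funext hi⟩
  have e4 : ∀ i, ∀ᶠ s in 𝓝 s₀, F (g s, φ s i) = F (g s₀, φ s₀ i) := fun i =>
    have c := e3.mono fun s k => (k.2 _).2 ⟨i, rfl⟩
    hF k V.X (fun s => (g s, φ s i)) s₀
      ⟨hg.at s₀, fun j => (hσ j (i j)).cmp (hg.at s₀), c.mono fun s k => k.1.1⟩ c.self_of_nhds.1
      (fun j => e1.mono fun s k => (hz s k j).trans (hz s₀ hq j).symm)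
      fun j l => c.mono fun s k => (k.2 j l).trans (c.self_of_nhds.2 j l).symm
  filter_upwards [e3, eventually_all.2 e4] with s k1 k2
  exact (tsum_fib (φ s) k1.1 k1.2 fun x => F (g s, x)).trans ((tsum_congr k2).trans
    (tsum_fib (φ s₀) e3.self_of_nhds.1 e3.self_of_nhds.2 fun x => F (g s₀, x)).symm)

theorem const : Gt.CONST := by
  intro T X E _ _ _ _ μ N W B F t₀ t₁ hc hF hj
  refine lintegral_congr_ae (hj.mono fun o ⟨γ, hγ⟩ => ?_)
  have hb : ∀ s : ℝ, (γ.extend s, o) ∉ B := fun s => hγ (projIcc 0 1 zero_le_one s)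
  let G (t : T) : ℝ≥0∞ := ∑' x : {x // (t, x) ∈ N ∧ W (t, x) = o}, F (t, x)
  suffices H : ∀ s₀ : ℝ, ∀ᶠ s in 𝓝 s₀, G (γ.extend s) = G (γ.extend s₀) by
    have := lc isPreconnected_univ (fun s _ => H s) (mem_univ 0) (mem_univ 1)
    rwa [γ.extend_zero, γ.extend_one] at this
  intro s₀
  obtain ⟨-, U, hU, oU, -, H, hH⟩ := hc _ (hb s₀)
  have cc : Continuous fun s : ℝ => (γ.extend s, o) := γ.continuous_extend.prodMk continuous_const
  let J := connectedComponentIn ((fun s : ℝ => (γ.extend s, o)) ⁻¹' U) s₀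
  have hJ : J ∈ 𝓝 s₀ := connectedComponentIn_mem_nhds ((oU.preimage cc).mem_nhds hU)
  haveI : PreconnectedSpace J := isPreconnected_iff_preconnectedSpace.1
    isPreconnected_connectedComponentIn
  let b (s : J) : U := ⟨(γ.extend s, o),
    connectedComponentIn_subset ((fun s : ℝ => (γ.extend s, o)) ⁻¹' U) s₀ s.2⟩
  have cb : Continuous b := (cc.comp continuous_subtype_val).subtype_mk _
  let sh (i) (s : J) : N := (H.symm (b s, i)).1
  have p1 : ∀ i s, ((sh i s).1.1, W (sh i s).1) = (γ.extend s, o) := fun i s =>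
    (hH (H.symm (b s, i))).symm.trans (by rw [H.apply_symm_apply])
  have p2 : ∀ i s, (γ.extend s.1, (sh i s).1.2) = (sh i s).1 := fun i s =>
    Prod.ext (congrArg Prod.fst (p1 i s)).symm rfl
  have p3 : ∀ s : J, G (γ.extend s) = ∑' i, F (sh i s) := fun s => by
    refine (tsum_fib (fun i => (sh i s).1.2) (fun i i' e => ?_) (fun x => ⟨fun k => ?_, ?_⟩)
      fun x => F (γ.extend s, x)).trans (tsum_congr fun i => congrArg F (p2 i s))
    · have e' : sh i s = sh i' s := Subtype.ext ((p2 i s).symm.trans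
        ((congrArg (Prod.mk _) e).trans (p2 i' s)))
      exact congrArg Prod.snd (H.symm.injective (Subtype.ext e'))
    · have m : (γ.extend s.1, W (γ.extend s.1, x)) = (b s).1 := Prod.ext rfl k.2
      let q : (fun q : N => (q.1.1, W q.1)) ⁻¹' U := ⟨⟨_, k.1⟩, mem_preimage.2 (m ▸ (b s).2)⟩
      have e : (b s, (H q).2) = H q := Prod.ext (Subtype.ext ((hH q).trans m).symm) rfl
      exact ⟨(H q).2, congrArg (fun r => r.1.1.2) ((congrArg H.symm e).trans (H.symm_apply_apply q))⟩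
    · rintro ⟨i, rfl⟩
      rw [p2 i s]
      exact ⟨(sh i s).2, congrArg Prod.snd (p1 i s)⟩
  have p4 : ∀ i (s s' : J), F (sh i s) = F (sh i s') := fun i s s' => by
    refine lc isPreconnected_univ (f := fun s => F (sh i s)) (fun s _ => ?_) (mem_univ s)
      (mem_univ s')
    have cs : Continuous fun s => (sh i s).1 := continuous_subtype_val.comp
      (continuous_subtype_val.comp (H.symm.continuous.comp (cb.prodMk continuous_const)))
    refine ((tendsto_nhdsWithin_iff.2 ⟨cs.tendsto s, .of_forall fun s => (sh i s).2⟩).eventually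
      (hF _ (sh i s).2 (p1 i s ▸ hb s))).mono fun s' k => k ?_
    exact (congrArg Prod.snd (p1 i s')).trans (congrArg Prod.snd (p1 i s)).symm
  filter_upwards [hJ] with s hs
  exact (p3 ⟨s, hs⟩).trans ((tsum_congr fun i => p4 i _ _).trans (p3 ⟨s₀, mem_of_mem_nhds hJ⟩).symm)

end Vale.Agent.P281Z.Gi
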