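import Vale.Agent.P281Z.Gt.SkT
import Vale.Agent.P298.H707.Area

/-!
# P281Z, block III: the area formula
-/

open scoped Topology ENNReal
open Set Filter MeasureTheory
open Vale.Agent.P272.K
open Vale.Agent.P298.H707 (Fib lintegral_fib)

noncomputable section

namespace Vale.Agent.P281Z.Gi

section det

variable {E : Type} [NormedAddCommGroup E] [NormedSpace ℂ E] [NormedSpace ℝ E]
  [IsScalarTower ℝ ℂ E] [FiniteDimensional ℂ E]

/-- the real determinant of a complex linear map -/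
theorem detR (L : E →L[ℂ] E) :
    (L.restrictScalars ℝ).det = ‖LinearMap.det (L : E →ₗ[ℂ] E)‖ ^ 2 := by
  rw [← Complex.normSq_eq_norm_sq, ← Algebra.norm_complex_apply]
  exact LinearMap.det_restrictScalars (R := ℝ) (S := ℂ) (f := (L : E →ₗ[ℂ] E))

theorem detR_fderiv {W : E → E} {z : E} (h : DifferentiableAt ℂ W z) :
    (fderiv ℝ W z).det = ‖LinearMap.det (fderiv ℂ W z : E →ₗ[ℂ] E)‖ ^ 2 := by
  rw [h.fderiv_restrictScalars ℝ, detR]

theorem detE_fderiv {W : E → E} {z : E} (h : DifferentiableAt ℂ W z) :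
    ENNReal.ofReal |(fderiv ℝ W z).det| = ‖LinearMap.det (fderiv ℂ W z : E →ₗ[ℂ] E)‖ₑ ^ 2 := by
  rw [detR_fderiv h, abs_of_nonneg (sq_nonneg _), ENNReal.ofReal_pow (norm_nonneg _),
    ofReal_norm]

end det

theorem area : Gt.AREA := by
  intro k U W F hU hW hF
  have hc : ContDiffOn ℝ 1 W U := fun z hz =>
    ((hW z hz).1.contDiffAt.restrict_scalars ℝ).contDiffWithinAt
  have hd : ∀ z ∈ U, (fderiv ℝ W z).det ≠ 0 := fun z hz => by
    rw [detR_fderiv (hW z hz).1.differentiableAt]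
    exact pow_ne_zero _ (norm_ne_zero_iff.2 (hW z hz).2)
  have h := lintegral_fib volume hU hc hF
  have e1 : {q | q ∈ U ∧ (fderiv ℝ W q).det ≠ 0} = U :=
    Set.ext fun q => ⟨fun hq => hq.1, fun hq => ⟨hq, hd q hq⟩⟩
  have e2 : ∀ o, Fib U W o = {z | z ∈ U ∧ W z = o} := fun o =>
    Set.ext fun q => ⟨fun hq => ⟨hq.1, hq.2.1⟩, fun hq => ⟨hq.1, hq.2, hd q hq.1⟩⟩
  rw [e1] at h
  refine ((lintegral_congr fun o => ?_).trans h).trans
    (setLIntegral_congr_fun hU.measurableSet fun z hz => ?_)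
  · rw [e2]
    rfl
  rw [detE_fderiv (hW z hz).1.differentiableAt, mul_comm]

end Vale.Agent.P281Z.Gi
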