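import Vale.Agent.P281Z.Gi.Sk
import Vale.Agent.P281Z.Gi.Area
import Vale.Agent.P281Z.Mf.An

/-!
# P281Z, block III: the fibre integral is bounded by finitely many integrals over pieces
-/

open scoped Manifold ContDiff Topology ENNReal
open Set Filter MeasureTheory
open Vale.Agent.P272.K Vale.Agent.P285.H281.FD
open Vale.Agent.P277Z (Hol)
open Vale.Agent.P281Z.Gt
open Vale.Agent.P298.H707 (lintegral_tsum_le)

noncomputable section

namespace Vale.Agent.P281Z.Gi

namespace CovH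

theorem lsc_ind {E : Type} [TopologicalSpace E] {U : Set E} (hU : IsOpen U) {g : E → ℝ≥0∞}
    (hg : ∀ u ∈ U, LowerSemicontinuousAt g u) : LowerSemicontinuous (U.indicator g) := by
  intro u c hc
  by_cases h : u ∈ U
  · have hc' : c < g u := by simpa only [indicator_of_mem h] using hc
    filter_upwards [hg u h c hc', hU.mem_nhds h] with v h1 h2
    simpa only [indicator_of_mem h2] using h1
  · have hc' : c < 0 := by simpa only [indicator_of_notMem h] using hc
    exact absurd hc' (not_lt_of_ge zero_le)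

theorem enorm_prd {ι : Type} (s : Finset ι) (f : ι → ℂ) : ‖∏ i ∈ s, f i‖ₑ = ∏ i ∈ s, ‖f i‖ₑ := by
  simp only [enorm_eq_nnnorm, nnnorm_prod, ENNReal.ofNNReal_finsetProd]

theorem hol_an {a : ℕ} {g : Cm a → ℂ} {u : Cm a} (h : Hol a g u) : AnalyticAt ℂ g u :=
  h (chartAt (Cm a) u) ⟨chart_mem_atlas _ _, mem_chart_source _ _⟩

/-- the determinant of a block diagonal map -/
theorem det_blk {a n : ℕ} {φ : Fin n → Cm a → Cm a} {u : Fin n → Cm a}
    (h : ∀ j, DifferentiableAt ℂ (φ j) (u j)) :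
    LinearMap.det (fderiv ℂ (fun (v : Fin n → Cm a) j => φ j (v j)) u :
      (Fin n → Cm a) →ₗ[ℂ] (Fin n → Cm a)) =
      ∏ j, LinearMap.det (fderiv ℂ (φ j) (u j) : Cm a →ₗ[ℂ] Cm a) := by
  have : HasFDerivAt (fun (v : Fin n → Cm a) j => φ j (v j)) (ContinuousLinearMap.pi fun j =>
      (fderiv ℂ (φ j) (u j)).comp (ContinuousLinearMap.proj j)) u :=
    hasFDerivAt_pi.2 fun j => (h j).hasFDerivAt.comp u
      (ContinuousLinearMap.proj (R := ℂ) (φ := fun _ : Fin n => Cm a) j).hasFDerivAt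
  rw [this.fderiv]
  exact ContinuousLinearMap.det_pi _

variable {p a m n : ℕ} {M : Fb (p + a) p} {C : NS M} (Z : Pcs C m)

/-- the good coordinates -/
def Gd (x : Fin n → M.X.X) (W : Set (M.Y.X × (Fin n → Cm a))) : Set (M.Y.X × (Fin n → Cm a)) :=
  interior {c | c ∈ W ∧ ∀ j, HolA a (p + a) (Z.ψ (x j) c.1) (c.2 j) ∧
    M.f (Z.ψ (x j) c.1 (c.2 j)) = c.1}

variable {Z} {x : Fin n → M.X.X} {W : Set (M.Y.X × (Fin n → Cm a))} {y : M.Y.X}

theorem gd_mem (hx : Fp (y, x)) (hy : y ∉ C.Q) (hW : W ∈ 𝓝 (y, (0 : Fin n → Cm a))) :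
    Gd Z x W ∈ 𝓝 (y, (0 : Fin n → Cm a)) := by
  refine interior_mem_nhds.2 (Eventually.and hW (eventually_all.2 fun j => ?_))
  have e : M.f (x j) = y := hx j
  have h := Z.hol (x j) (e ▸ hy)
  rw [e] at h
  have c : Tendsto (fun c : M.Y.X × (Fin n → Cm a) => (c.1, c.2 j)) (𝓝 (y, 0)) (𝓝 (y, 0)) :=
    (continuous_fst.prodMk ((continuous_apply j).comp continuous_snd)).continuousAt
  exact (c.eventually h).mono fun c hc => ⟨hc.1, hc.2.1⟩

theorem gd_cov (hx : Fp (y, x)) (hy : y ∉ C.Q) {V : Set (M.Y.X × (Fin n → Cm a))}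
    (hV : V ∈ 𝓝 (y, (0 : Fin n → Cm a))) :
    ∀ᶠ q : Pt M n in 𝓝 (y, x), Fp q → ∃ u, (q.1, u) ∈ V ∧ Z.pq x q.1 u = q := by
  obtain ⟨O, hO, B, hB, hs⟩ := mem_nhds_prod_iff.1 hV
  obtain ⟨r, hr, hb⟩ := Metric.mem_nhds_iff.1 hB
  have h : ∀ j, ∀ᶠ q : Pt M n in 𝓝 (y, x), ∃ u, (M.f (q.2 j), u) ∈ O ×ˢ Metric.ball (0 : Cm a) r ∧
      Z.ψ (x j) (M.f (q.2 j)) u = q.2 j := fun j => by
    have e : M.f (x j) = y := hx j
    have c : Tendsto (fun q : Pt M n => q.2 j) (𝓝 (y, x)) (𝓝 (x j)) :=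
      ((continuous_apply j).comp continuous_snd).continuousAt
    exact c.eventually (Z.cov (x j) (e ▸ hy) _
      (prod_mem_nhds (e ▸ hO) (Metric.ball_mem_nhds _ hr)))
  filter_upwards [eventually_all.2 h, continuousAt_fst.eventually hO] with q h1 h2 hq
  choose u hu hv using h1
  refine ⟨u, hs ⟨h2, hb ?_⟩, Prod.ext rfl (funext fun j => ?_)⟩
  · rw [mem_ball_zero_iff, pi_norm_lt_iff hr]
    exact fun j => mem_ball_zero_iff.1 (hu j).2
  · have := hv j
    rwa [hq j] at this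

variable (Z x W y) in
/-- the piece -/
def Us : Set (Fin n → Cm a) := {u | (y, u) ∈ Gd Z x W ∧ Z.pq x y u ∈ C.N n}

theorem us_hol {u : Fin n → Cm a} (h : u ∈ Us Z x W y) (j : Fin n) :
    HolA a (p + a) (Z.ψ (x j) y) (u j) := ((interior_subset h.1).2 j).1

theorem us_cont {u : Fin n → Cm a} (h : u ∈ Us Z x W y) : ContinuousAt (Z.pq x y) u :=
  continuousAt_const.prodMk (continuousAt_pi.2 fun j =>
    ContinuousAt.comp (f := fun v : Fin n → Cm a => v j) (us_hol h j).cont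
      (continuous_apply j).continuousAt)

theorem us_open : IsOpen (Us Z x W y) := isOpen_iff_mem_nhds.2 fun u h => by
  have h1 : ∀ᶠ v in 𝓝 u, (y, v) ∈ Gd Z x W :=
    (Continuous.prodMk_right y).continuousAt.eventually (isOpen_interior.mem_nhds h.1)
  have h2 : ∀ j, ∀ᶠ v in 𝓝 u, (Z.pq x y v).2 j ∉ C.S := fun j =>
    (((continuous_apply j).comp continuous_snd).continuousAt.comp (us_cont h)).eventually
      (C.thinS.closed.isOpen_compl.mem_nhds (h.2.2.2 j))
  filter_upwards [h1, eventually_all.2 h2] with v p1 p2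
    using ⟨p1, fun j => ((interior_subset p1).2 j).2, h.2.2.1, p2⟩

theorem us_an {u : Fin n → Cm a} (h : u ∈ Us Z x W y) (j : Fin n) :
    AnalyticAt ℂ (fun v i => C.w i (Z.ψ (x j) y v)) (u j) :=
  AnalyticAt.pi fun i => hol_an ((us_hol h j).hol ((C.mr i).hol _ (h.2.2.2 j)))

theorem us_an' {u : Fin n → Cm a} (h : u ∈ Us Z x W y) :
    AnalyticAt ℂ (fun (v : Fin n → Cm a) j i => C.w i (Z.ψ (x j) y (v j))) u :=
  AnalyticAt.pi fun j => AnalyticAt.comp (f := fun v : Fin n → Cm a => v j) (us_an h j)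
    ((ContinuousLinearMap.proj (R := ℂ) (φ := fun _ : Fin n => Cm a) j).analyticAt u)

theorem us_lsc {F : Pt M n → ℝ≥0∞} (hF : Ls C F) :
    LowerSemicontinuous ((Us Z x W y).indicator fun u => F (Z.pq x y u)) :=
  lsc_ind us_open fun u h c hc =>
    (tendsto_nhdsWithin_iff.2 ⟨us_cont h, mem_of_superset (us_open.mem_nhds h) fun _ hv => hv.2⟩ :
      Tendsto (Z.pq x y) (𝓝 u) (𝓝[C.N n] Z.pq x y u)).eventually (hF _ h.2 c hc)

theorem bound (T : Finset (Fin n → M.X.X)) (W : (Fin n → M.X.X) → Set (M.Y.X × (Fin n → Cm a)))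
    (h : ∀ x', Fp (y, x') → ∃ x ∈ T, ∃ u, (y, u) ∈ Gd Z x (W x) ∧ Z.pq x y u = (y, x'))
    {F : Pt M n → ℝ≥0∞} (hF : Ls C F) : C.I F y ≤ ∑ x ∈ T, Z.J x (W x) F y := by
  have : (volume : Measure (Fin n → Cm a)).IsAddHaarMeasure :=
    Measure.pi.isAddHaarMeasure _
  have key := lintegral_tsum_le (volume : Measure (Fin n → Cm a)) (ι := T)
    (fun o => {x' | (y, x') ∈ C.N n ∧ ∀ j i, C.w i (x' j) = o j i}) (fun _ x' => F (y, x'))
    (fun x => Us Z x.1 (W x.1) y) (fun _ => us_open)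
    (fun x v j i => C.w i (Z.ψ (x.1 j) y (v j)))
    (fun x u hu => ((us_an' hu).contDiffAt.restrict_scalars ℝ).contDiffWithinAt)
    (fun x u => (Z.pq x.1 y u).2)
    (fun x u => (Us Z x.1 (W x.1) y).indicator (fun u => F (Z.pq x.1 y u)) u * ENNReal.ofReal
      |(fderiv ℝ (fun (v : Fin n → Cm a) j i => C.w i (Z.ψ (x.1 j) y (v j))) u).det|)
    (fun x => (us_lsc hF).measurable.mul (ENNReal.measurable_ofReal.comp
      (continuous_abs.measurable.comp
        (ContinuousLinearMap.continuous_det.measurable.comp (measurable_fderiv ℝ _)))))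
    (ae_of_all _ fun o x' hx' _ => by
      obtain ⟨x, hx, u, hu, e⟩ := h x' hx'.1.1
      refine ⟨⟨x, hx⟩, u, ⟨hu, e ▸ hx'.1⟩, funext fun j => funext fun i => ?_, congrArg Prod.snd e⟩
      rw [← hx'.2 j i]
      exact congrArg (fun q : Pt M n => C.w i (q.2 j)) e)
    (fun x u hu _ => by
      rw [indicator_of_mem hu]
      exact le_rfl)
  refine key.trans ?_
  rw [← Finset.sum_coe_sort T]
  refine Finset.sum_le_sum fun x _ => le_of_eq_of_le
    (setLIntegral_congr_fun us_open.measurableSet fun u hu => ?_)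
    (lintegral_mono_set fun u hu => ⟨(interior_subset hu.1).1, hu.2⟩)
  rw [indicator_of_mem hu, detE_fderiv (us_an' hu).differentiableAt,
    det_blk (φ := fun j v i => C.w i (Z.ψ (x.1 j) y v)) fun j => (us_an hu j).differentiableAt,
    enorm_prd, Finset.prod_pow]
  rfl

end CovH

open CovH in
theorem cova : COVA := by
  intro p a m n M C Z y₀ W hM hy hW
  have hcl : IsClosed {q : Pt M n | Fp q} := by
    simp only [Fp, ofPred_forall]
    exact isClosed_iInter fun j => isClosed_eq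
      (hM.fibn.hol.cont.comp ((continuous_apply j).comp continuous_snd)) continuous_fst
  have hK : IsCompact {x : Fin n → M.X.X | Fp (y₀, x)} :=
    (hcl.preimage (Continuous.prodMk_right y₀)).isCompact
  obtain ⟨T, hT, hc⟩ := hK.elim_nhds_subcover (fun x => {x' | ∀ᶠ q : Pt M n in 𝓝 (y₀, x'),
      Fp q → ∃ u, (q.1, u) ∈ Gd Z x (W x) ∧ Z.pq x q.1 u = q}) fun x hx =>
    (Continuous.prodMk_right y₀).continuousAt.eventually
      (gd_cov hx hy (gd_mem hx hy (hW x hx))).eventually_nhds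
  refine ⟨T, hT, ?_⟩
  have := isCompact_univ.eventually_forall_of_forall_eventually (x₀ := y₀)
    (P := fun y (x' : Fin n → M.X.X) => Fp (y, x') →
      ∃ x ∈ T, ∃ u, (y, u) ∈ Gd Z x (W x) ∧ Z.pq x y u = (y, x')) fun x' _ => by
    by_cases hx : Fp (y₀, x')
    · obtain ⟨x, hx, h⟩ := mem_iUnion₂.1 (hc hx)
      exact Eventually.mono h fun q h1 h2 => ⟨x, hx, h1 h2⟩
    · exact mem_of_superset (hcl.isOpen_compl.mem_nhds hx) fun q h1 h2 => absurd h2 h1
  exact this.mono fun y h F hF => bound T W (fun x' => h x' trivial) hF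

end Vale.Agent.P281Z.Gi
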