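import Vale.Agent.P281Z.Gi.Sk
import Vale.Agent.P281.H76.SncInt
import Vale.Agent.P271.LOCE.Pos

/-!
# P281Z, block III: integrals of monomials, local bounds of the fibre integrals
-/

open scoped Topology ENNReal
open Set Filter MeasureTheory Metric
open Vale.Agent.P272.K
open Vale.Agent.P281Z.Gt

noncomputable section

namespace Vale.Agent.P281Z.Gi

namespace FiniH

theorem lint_pi {α : Type} [MeasurableSpace α] {n : ℕ} (μ : Measure α) [SigmaFinite μ]
    (f : Fin n → α → ℝ≥0∞) (hf : ∀ i, Measurable (f i)) :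
    ∫⁻ x : Fin n → α, ∏ i, f i (x i) ∂(Measure.pi fun _ : Fin n => μ) = ∏ i, ∫⁻ z, f i z ∂μ := by
  induction n with
  | zero => simp
  | succ n ih =>
    rw [((measurePreserving_piFinSuccAbove (fun _ : Fin (n + 1) => μ) 0).symm).lintegral_map_equiv]
    simp_rw [MeasurableEquiv.piFinSuccAbove_symm_apply, Fin.insertNthEquiv,
      Fin.prod_univ_succ, Fin.insertNth_zero]
    simp only [Equiv.coe_fn_mk, Fin.cons_succ, Fin.cons_zero, cast_eq]
    have h1 := lintegral_prod_mul (μ := μ) (ν := Measure.pi fun _ : Fin n => μ) (f := f 0)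
      (g := fun x : Fin n → α => ∏ i : Fin n, f i.succ (x i)) (hf 0).aemeasurable
      (Finset.measurable_prod _ fun (i : Fin n) _ =>
        (hf i.succ).comp (measurable_pi_apply i)).aemeasurable
    refine h1.trans ?_
    rw [ih (fun i => f i.succ) fun i => hf _]

theorem young (A B : ℝ≥0∞) {τ σ : ℝ} (h : τ.HolderConjugate σ) : A * B ≤ A ^ τ + B ^ σ :=
  (ENNReal.young_inequality A B h).trans (add_le_add
    (ENNReal.div_le_of_le_mul (le_mul_of_one_le_right' (ENNReal.one_le_ofReal.2 h.lt.le)))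
    (ENNReal.div_le_of_le_mul (le_mul_of_one_le_right' (ENNReal.one_le_ofReal.2 h.symm.lt.le))))

theorem neg_le (b : ℝ≥0∞) {x y : ℝ} (h0 : 0 ≤ x) (h : x ≤ y) : b ^ (-x) ≤ 1 + b ^ (-y) := by
  rcases le_total b 1 with k | k
  · exact (ENNReal.rpow_le_rpow_of_exponent_ge k (neg_le_neg h)).trans le_add_self
  · exact ((ENNReal.rpow_le_rpow_of_exponent_le k (neg_nonpos.2 h0)).trans_eq
      (ENNReal.rpow_zero)).trans le_self_add

theorem negpow {E : Type} [NormedAddCommGroup E] [NormedSpace ℂ E] [MeasurableSpace E]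
    [BorelSpace E] [ProperSpace E] (μ : Measure E) [IsFiniteMeasureOnCompacts μ]
    [μ.IsAddRightInvariant] {h : E → ℂ} (ha : AnalyticAt ℂ h 0) (hne : ∃ᶠ u in 𝓝 0, h u ≠ 0) :
    ∃ s > (0 : ℝ), ∃ r > (0 : ℝ), r ≤ 1 ∧ ∫⁻ u in ball 0 r, ‖h u‖ₑ ^ (-(2 * s)) ∂μ < ⊤ := by
  obtain ⟨O, h1, h2, h3⟩ := _root_.eventually_nhds_iff.1 ha.eventually_analyticAt
  have hd : DifferentiableOn ℂ h O := fun z hz => (h1 z hz).differentiableAt.differentiableWithinAt
  obtain ⟨s, hs, V, hV, H⟩ := P271.LOCE.pos μ h2 hd h3 hne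
  obtain ⟨δ, hδ, -, h0⟩ := P271.LOCE.zero_null μ h2 hd h3 hne
  obtain ⟨r, hr, k⟩ := Metric.mem_nhds_iff.1 hV
  refine ⟨s, hs, min (min r δ) 1, by positivity, min_le_right _ _, lt_of_le_of_lt ?_
    ((lintegral_mono_set ((ball_subset_ball ((min_le_left _ 1).trans (min_le_left r δ))).trans
      k)).trans_lt H)⟩
  refine (setLIntegral_congr_fun_ae measurableSet_ball ?_).le
  filter_upwards [measure_eq_zero_iff_ae_notMem.1 h0] with u hu hu'
  have k1 : 0 < ‖h u‖ := norm_pos_iff.2 fun e => hu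
    ⟨ball_subset_ball ((min_le_left _ 1).trans (min_le_right r δ)) hu', e⟩
  rw [← ofReal_norm, ENNReal.ofReal_rpow_of_pos k1, Real.rpow_def_of_pos k1]
  congr 2
  ring

theorem key {n a m k : ℕ} (hm : 0 < m) (hk : 0 < k) {f : ℂ} {J : Fin n → ℂ} {u : Fin n → Cm a}
    {d : Fin n → Fin a → ℕ} {K : ℝ} (h0 : ∀ j, J j ^ m * ∏ i, u j i ^ d j i ≠ 0)
    (h : ‖f‖ * ∏ j, ‖J j ^ m * ∏ i, u j i ^ d j i‖ ^ k ≤ K) :
    ‖f‖ₑ ^ (2 / (m * k) : ℝ) * ∏ j, ‖J j‖ₑ ^ 2 ≤ ENNReal.ofReal K ^ (2 / (m * k) : ℝ) *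
      ∏ j, ∏ i, ‖u j i‖ₑ ^ (-(2 * (d j i / m : ℝ))) := by
  have he : (0 : ℝ) ≤ 2 / (m * k) := by positivity
  have h1 := ENNReal.rpow_le_rpow (ENNReal.ofReal_le_ofReal h) he
  have e1 : (m : ℝ) * k * (2 / (m * k)) = (2 : ℕ) := by push_cast; field_simp
  have e2 : ∀ x : ℝ, x * k * (2 / (m * k)) = 2 * (x / m) := fun x => by field_simp
  have e3 : ∀ z : ℂ, ‖z‖ = ‖z‖₊ := fun _ => rfl
  simp only [norm_mul, norm_prod, norm_pow] at h1
  simp only [e3, ← NNReal.coe_pow, ← NNReal.coe_prod, ← NNReal.coe_mul, ENNReal.ofReal_coe_nnreal,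
    ENNReal.coe_mul, ENNReal.ofNNReal_finsetProd, ENNReal.coe_pow, ← enorm_eq_nnnorm] at h1
  simp only [ENNReal.mul_rpow_of_nonneg _ _ he, ← ENNReal.prod_rpow_of_nonneg he, mul_pow,
    ← Finset.prod_pow, ← ENNReal.rpow_natCast, ← ENNReal.rpow_mul, e1] at h1
  simp only [e2, ENNReal.rpow_natCast, Finset.prod_mul_distrib] at h1
  refine le_trans (le_of_eq ?_) (mul_le_mul_left h1 _)
  rw [mul_assoc, mul_assoc, ← Finset.prod_mul_distrib]
  simp only [← Finset.prod_mul_distrib (s := Finset.univ (α := Fin a))]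
  rw [Finset.prod_eq_one (f := fun j => ∏ i, _) fun j _ => Finset.prod_eq_one fun i _ => ?_, mul_one]
  rcases (d j i).eq_zero_or_pos with e | e
  · simp [e]
  · rw [← ENNReal.rpow_add _ _ (enorm_ne_zero.2 fun c => h0 j ?_) enorm_ne_top, add_neg_cancel,
      ENNReal.rpow_zero]
    rw [Finset.prod_eq_zero (Finset.mem_univ i) (by rw [c, zero_pow e.ne']), mul_zero]

end FiniH

open FiniH

/-- **MONI** -/
theorem moni : MONI := by
  intro n a t ht
  rw [ball_pi _ one_pos, volume_pi, Measure.restrict_pi_pi]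
  exact (lint_pi (volume.restrict (ball (0 : Cm a) 1))
    (fun j z => ∏ i, ‖z i‖ₑ ^ (-(2 * t j i))) fun j => Finset.measurable_prod _ fun i _ =>
      (measurable_pi_apply i).enorm.pow_const _).trans_lt
    (ENNReal.prod_lt_top fun j _ => (P281.H76.intN (ht j)).lt_top)

/-- **LCT** -/
theorem lct : LCT := by
  intro n a t h ht ha hne
  obtain ⟨s, hs, r, hr, r1, H⟩ := negpow volume ha hne
  have k1 : ∀ᶠ τ in 𝓝 (1 : ℝ), ∀ j i, τ * t j i < 1 := eventually_all.2 fun j =>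
    eventually_all.2 fun i => (continuous_id.mul continuous_const).continuousAt.eventually_lt
      continuousAt_const (by simpa using ht j i)
  obtain ⟨τ, τ1, τ2⟩ := ((k1.filter_mono nhdsWithin_le_nhds).and
    (self_mem_nhdsWithin (s := Ioi (1 : ℝ)))).exists
  have hc := Real.HolderConjugate.conjExponent τ2
  refine ⟨ball 0 r, ball_mem_nhds _ hr, ?_⟩
  filter_upwards [Ioc_mem_nhdsGT (div_pos hs hc.symm.pos)] with η hη
  refine lt_of_le_of_lt (lintegral_mono (g := fun u => (∏ j, ∏ i, ‖u j i‖ₑ ^ (-(2 * (τ * t j i)))) +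
    (1 + ‖h u‖ₑ ^ (-(2 * s)))) fun u => (young _ _ hc).trans (add_le_add (le_of_eq ?_) ?_)) ?_
  · simp only [← ENNReal.prod_rpow_of_nonneg hc.nonneg, ← ENNReal.rpow_mul]
    exact Finset.prod_congr rfl fun j _ => Finset.prod_congr rfl fun i _ => by congr 1; ring
  · rw [← ENNReal.rpow_mul, neg_mul]
    exact neg_le _ (mul_nonneg (mul_pos two_pos hη.1).le hc.symm.nonneg)
      (by linarith [(le_div_iff₀ hc.symm.pos).1 hη.2])
  · rw [lintegral_add_left (Finset.measurable_prod _ fun j _ => Finset.measurable_prod _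
      fun i _ => by fun_prop), lintegral_add_left measurable_const, setLIntegral_one]
    exact ENNReal.add_lt_top.2 ⟨(lintegral_mono_set (ball_subset_ball r1)).trans_lt
      (moni n a _ τ1), ENNReal.add_lt_top.2 ⟨measure_ball_lt_top, H⟩⟩

/-- **FINI** -/
theorem fini_of (h1 : PIECE) (h2 : BSP) (h3 : COVA) (h4 : CONT) : FINI := by
  intro p a m n k M C F hS hk hF y hy
  have hm : 0 < m := zero_lt_two.trans_le hS.two
  obtain ⟨Z⟩ := h1 p a m M C hS
  choose! K hK using fun x (hx : Fp (y, x)) => h2 p a m n k M C Z F (y, x) hF.bs hx hy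
  obtain ⟨T, hT, H⟩ := h3 p a m n M C Z y (fun x => {c | (Z.pq x c.1 c.2 ∈ C.N n →
    ‖F (Z.pq x c.1 c.2)‖ * ∏ j, ‖wt C m (Z.ψ (x j) c.1) (Z.d (x j)) (c.2 j)‖ ^ k ≤ K x) ∧
    (∀ j, Z.ψ (x j) c.1 (c.2 j) ∉ C.S → wt C m (Z.ψ (x j) c.1) (Z.d (x j)) (c.2 j) ≠ 0) ∧
    c.2 ∈ ball 0 1}) hS.ok hy fun x hx => by
      refine (hK x hx).and (Eventually.and (eventually_all.2 fun j => ?_)
        (continuous_snd.continuousAt.eventually_mem (ball_mem_nhds _ one_pos)))
      have e : M.f (x j) = y := hx j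
      have k1 := Z.hol (x j) (e ▸ hy)
      rw [e] at k1
      exact ((continuous_fst.prodMk ((continuous_apply j).comp continuous_snd)).tendsto
        (y, (0 : Fin n → Cm a))).eventually (k1.mono fun _ c => c.2.2)
  have hd : ∀ x ∈ T, ∀ j i, (Z.d (x j) i / m : ℝ) < 1 := fun x hx j i =>
    (div_lt_one (Nat.cast_pos.2 hm)).2 (Nat.cast_lt.2
      (Z.lt (x j) ((show M.f (x j) = y from hT x hx j) ▸ hy) i))
  refine ⟨∑ x ∈ T, ENNReal.ofReal (K x) ^ (2 / (m * k) : ℝ) *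
    ∫⁻ u in ball (0 : Fin n → Cm a) 1, ∏ j, ∏ i, ‖u j i‖ₑ ^ (-(2 * (Z.d (x j) i / m : ℝ))),
    ENNReal.sum_lt_top.2 fun x hx => ENNReal.mul_lt_top (ENNReal.rpow_lt_top_of_nonneg
      (by positivity) ENNReal.ofReal_ne_top) (moni n a _ (hd x hx)), H.mono fun y' hy' =>
    (hy' _ ?_).trans (Finset.sum_le_sum fun x _ => ?_)⟩
  · exact (ENNReal.continuous_rpow_const.comp_continuousOn (ContinuousOn.enorm fun q hq =>
      h4 p a n M C F hS.ok q hq (hF.hol q hq))).lowerSemicontinuousOn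
  · rw [← lintegral_const_mul' _ _ (ENNReal.rpow_ne_top_of_nonneg (by positivity)
      ENNReal.ofReal_ne_top)]
    exact (setLIntegral_mono (Measurable.const_mul (Finset.measurable_prod _ fun j _ =>
      Finset.measurable_prod _ fun i _ => by fun_prop) _) fun u hu => key hm hk
        (fun j => hu.1.2.1 j (hu.2.2.2 j)) (hu.1.1 hu.2)).trans
      (lintegral_mono_set fun u hu => hu.1.2.2)

end Vale.Agent.P281Z.Gi
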