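import Vale.Agent.P281Z.Gi.Sk
import Vale.Agent.P281Z.Fi.Fib

/-!
# P281Z, block III: finitely many local sections meet all the leaves
-/

open scoped Manifold ContDiff Topology
open Set Filter Function
open Vale.Agent.P272.K
open Vale.Agent.P277Z (Hol)
open Vale.Agent.P277Z.Slc (Ind)
open Vale.Agent.P281Z.Gt

noncomputable section

namespace Vale.Agent.P281Z.Gi

namespace Leaf

variable {n r d : ℕ} {V : Mf n} {P : Mf r} {g : V.X → P.X}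

/-- `t` and `t'` are in one component of the fibre over `q` -/
def Cn (g : V.X → P.X) (q : P.X) (t t' : V.X) : Prop :=
  ∃ (k : ℕ) (W : Mf k) (j : W.X → V.X) (a b : W.X), ConnectedSpace W.X ∧ HolM k n j ∧ j a = t ∧
    j b = t' ∧ ∀ w, g (j w) = q

theorem cn_of (hn : n = r + d) (hg : HolM n r g) {q : P.X} (hs : ∀ x, g x = q → Sbm n r g x)
    {C : Set V.X} (hC : IsPreconnected C) (hq : C ⊆ g ⁻¹' {q}) {t t' : V.X} (ht : t ∈ C)
    (ht' : t' ∈ C) : Cn g q t t' := by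
  obtain ⟨F, j, hj⟩ := fib_emb hn hg hs
  obtain ⟨a, rfl⟩ : t ∈ range j := hj.rng ▸ hq ht
  obtain ⟨b, rfl⟩ : t' ∈ range j := hj.rng ▸ hq ht'
  have h1 : IsPreconnected (j ⁻¹' C) := by
    rw [← hj.cemb.isInducing.isPreconnected_image, image_preimage_eq_of_subset (hj.rng ▸ hq)]
    exact hC
  obtain ⟨W, i, h2, h3⟩ := comp_emb F a
  obtain ⟨a', ha⟩ : a ∈ range i := h3.rng ▸ mem_connectedComponent
  obtain ⟨b', hb⟩ : b ∈ range i := h3.rng ▸ h1.subset_connectedComponent ht ht'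
  exact ⟨d, W, fun w => j (i w), a', b', h2, hj.hol.comp h3.hol, congrArg j ha, congrArg j hb,
    fun w => hj.fib _⟩

theorem core (hn : n = r + d) (hg : HolM n r g) {S : Set V.X} (hS : IsClosed S) {Q : Set P.X}
    (hQ : IsClosed Q) (hs : ∀ x, g x ∉ Q → Sbm n r g x) {q₀ : P.X} (h0 : q₀ ∉ Q)
    (hv : ∀ x, g x = q₀ → x ∈ closure {x' | g x' = g x ∧ x' ∉ S}) (hne : ∃ x, g x = q₀) :
    ∃ (ι : Type) (_ : Fintype ι) (s : ι → P.X → V.X), Nonempty ι ∧ ∀ᶠ q in 𝓝 q₀,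
      (∀ i, ContinuousAt (s i) q ∧ g (s i q) = q ∧ s i q ∉ S) ∧
        ∀ t, g t = q → ∃ i, Cn g q t (s i q) := by
  have hs₀ : ∀ x, g x = q₀ → Sbm n r g x := fun x hx => hs x (hx ▸ h0)
  obtain ⟨F, j, hj⟩ := fib_emb hn hg hs₀
  obtain ⟨ι, _, W, i, c1, c2, c3, c4, -⟩ := comps F
  have h1 : ∀ k, ∃ a ∈ range (i k), j a ∉ S := fun k => by
    obtain ⟨U, hU, e⟩ := hj.cemb.isInducing.isOpen_iff.1 (c3 k).isOpen
    have := c1 k
    obtain ⟨w⟩ : Nonempty (W k).X := inferInstance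
    have hw : i k w ∈ j ⁻¹' U := e ▸ mem_range_self w
    obtain ⟨x, hx, h1, h2⟩ := mem_closure_iff.1 (hv _ (hj.fib (i k w))) U hU hw
    obtain ⟨a, rfl⟩ : x ∈ range j := hj.rng ▸ h1.trans (hj.fib _)
    exact ⟨a, e ▸ hx, h2⟩
  choose a ha ha' using h1
  choose s s1 s2 s3 using fun k => (hs₀ _ (hj.fib (a k))).sec (hg.at _)
  simp only [hj.fib] at s1 s2 s3
  have h2 : ∀ k, ∃ O, IsOpen O ∧ j '' range (i k) ⊆ O ∧ O ⊆ univ ∧
      ∀ᶠ y in 𝓝 q₀, IsPreconnected (O ∩ g ⁻¹' {y}) := fun k => by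
    have := c1 k
    refine Fi.tube ((isCompact_range (c2 k).hol.cont).image hj.hol.cont)
      ((isConnected_range (c2 k).hol.cont).image _ hj.hol.cont.continuousOn) ?_ isOpen_univ
      (subset_univ _)
    rintro _ ⟨b, -, rfl⟩
    exact ⟨hj.fib b, Fi.lp_of_sbm (hs₀ _ (hj.fib b)) (hg.at _)⟩
  choose O o1 o2 o3 o4 using h2
  have h3 := Fi.ev_sub hg.cont (z := q₀) (isOpen_iUnion o1) (by
    rw [← hj.rng]
    rintro _ ⟨b, rfl⟩
    obtain ⟨k, hk⟩ := c4 b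
    exact mem_iUnion.2 ⟨k, o2 k ⟨b, hk, rfl⟩⟩)
  have h4 : ∀ k, ∀ᶠ q in 𝓝 q₀, s k q ∈ O k ∧ s k q ∉ S := fun k =>
    (s2 k).cont.eventually (((o1 k).inter hS.isOpen_compl).mem_nhds
      (by rw [s1]; exact ⟨o2 k ⟨_, ha k, rfl⟩, ha' k⟩))
  obtain ⟨x, hx⟩ := hne
  obtain ⟨b, rfl⟩ : x ∈ range j := hj.rng ▸ hx
  refine ⟨ι, inferInstance, s, ⟨(c4 b).choose⟩, ?_⟩
  filter_upwards [h3, eventually_all.2 h4, eventually_all.2 o4, eventually_all.2 s3,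
    eventually_all.2 fun k => (s2 k).near, hQ.isOpen_compl.mem_nhds h0] with q k1 k2 k3 k4 k5 k6
  refine ⟨fun k => ⟨(k5 k).cont, k4 k, (k2 k).2⟩, fun t ht => ?_⟩
  obtain ⟨k, hk⟩ := mem_iUnion.1 (k1 ht)
  exact ⟨k, cn_of hn hg (fun x hx => hs x (hx ▸ k6)) (k3 k) inter_subset_right ⟨hk, ht⟩
    ⟨(k2 k).1, k4 k⟩⟩

/-- the affine chart -/
def io (S : PS r) (c : Cm r) : S.P.X := S.pt (Fin.cons 1 c)

theorem cons_ne (c : Cm r) : (Fin.cons 1 c : Cm (r + 1)) ≠ 0 := ne_iff.2 ⟨0, one_ne_zero⟩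

theorem io_cont (S : PS r) (c : Cm r) : ContinuousAt (io S) c :=
  (S.cont _ (cons_ne c)).comp (f := fun c : Cm r => (Fin.cons 1 c : Cm (r + 1)))
    (continuous_const.finCons continuous_id).continuousAt

theorem io_inj (S : PS r) : Injective (io S) := fun c c' h => funext fun j => by
  simpa using (S.pt_eq_iff' (cons_ne c) (cons_ne c')).1 h j.succ 0

end Leaf

open Leaf in
theorem leaf_of (hR : RES) (hG : GEN) (hV : VERT) : LEAF := by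
  intro p v Y Q Q₀ z hQ hQ₀ hs hz ⟨y₀, h0, hi⟩
  obtain ⟨S⟩ := Pb.psex v
  obtain ⟨V, μ, g, hμ, hg, he, -⟩ := Fi.merm hR S hQ (fun j => (hz j).mer) fun j => (hz j).hol
  replace he : ∀ y, μ y ∉ Q → g y = io S fun j => z j (μ y) := he
  obtain ⟨Q₁, h1, hs₁⟩ := Fi.gen_sbm hG hg
  obtain ⟨Q₂, h2, hs₂⟩ := hV p v V S.P g _ hg (hμ.pre_thin hQ₀)
  have h3 := fun j => (hz j).hol y₀ h0
  obtain ⟨y₁, k1, k2⟩ := ((((Fi.sbm_iff S h3).2 hi).freq (S.holA (Fi.vec_hol h3) (Fi.vec_ne _))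
    ((h1.union h2).freq _)).and_eventually (hQ.closed.isOpen_compl.mem_nhds h0)).exists
  replace k1 : io S (fun j => z j y₁) ∉ Q₁ ∪ Q₂ := k1
  obtain ⟨d, hd⟩ := Nat.exists_eq_add_of_le (Fintype.card_fin v ▸ ind_le hi)
  obtain ⟨t₁, rfl⟩ := hμ.ex k2
  obtain ⟨ι, _, s, hι, h4⟩ := core hd hg (hμ.pre_thin hQ₀).closed h1.closed hs₁
    (fun h => k1 (Or.inl h)) (fun x hx => hs₂ x fun h => k1 (Or.inr (hx ▸ h))) ⟨t₁, he _ k2⟩
  obtain ⟨O, o1, o2, o3⟩ := eventually_nhds_iff.1 ((io_cont S _).eventually h4)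
  refine ⟨O, ι, inferInstance, fun i c => μ (s i (io S c)), o2, ⟨_, o3⟩, hι, fun i c hc => ?_,
    fun i c hc => ?_, fun y hy hc => ?_⟩
  · exact (hμ.hol.cont.continuousAt.comp (((o1 c hc).1 i).1.comp (io_cont S c))).continuousWithinAt
  · obtain ⟨-, e1, e2⟩ := (o1 c hc).1 i
    exact ⟨e2, io_inj S ((he _ fun h => e2 (hs h)).symm.trans e1)⟩
  · obtain ⟨t, rfl⟩ := hμ.ex hy
    obtain ⟨i, k, W, j, a, b, e1, e2, e3, e4, e5⟩ := (o1 _ hc).2 t (he t hy)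
    exact ⟨i, k, W, fun w => μ (j w), a, b, e1, hμ.hol.comp e2, congrArg μ e3, congrArg μ e4,
      fun w hw => congrFun (io_inj S ((he _ hw).symm.trans (e5 w)))⟩

end Vale.Agent.P281Z.Gi
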