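import Vale.Agent.P281Z.Gi.Main
import Vale.Agent.P281Z.Gi.Piece
import Vale.Agent.P281Z.Gi.Cova
import Vale.Agent.P281Z.Gi.Fini
import Vale.Agent.P281Z.Gi.Extb
import Vale.Agent.P281Z.Gi.Covw
import Vale.Agent.P281Z.Gi.Cnst
import Vale.Agent.P281Z.Gi.Leaf
import Vale.Agent.P281Z.Gl.All

/-!
# P281Z, block III: the integral bounds without hypotheses
-/

namespace Vale.Agent.P281Z.Gi

open Vale.Agent.P281Z.Gt

theorem lsc : LSC := lsc_of sh

theorem fini : FINI := fini_of piece bsp cova cont

theorem extb : EXTB := extb_of bsp anp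

theorem small : SMALL := small_of piece bsp cova cont lsm extb lct

theorem covw : COVW := covw_of resR cov vert

theorem nzb : NZB := nzb_of pw thn zero vert

theorem cnst : CNST := cnst_of covw

theorem leaf : LEAF := leaf_of resR genR vert

theorem parti : PARTI := parti_of fini small nzb cnst leaf

end Vale.Agent.P281Z.Gi
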