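import Vale.Agent.P281Z.Gi.Sk2
import Vale.Agent.P281Z.Gi.Fini

/-!
# P281Z, block III: products and permutations in the fibre integrals
-/

open scoped Topology ENNReal
open Set Filter MeasureTheory
open Vale.Agent.P272.K
open Vale.Agent.P281Z.Gt

noncomputable section

namespace Vale.Agent.P281Z.Gi

namespace IprH

theorem tsum_pi {s : ℕ} {α : Type} (f : Fin s → α → ℝ≥0∞) :
    ∑' x : Fin s → α, ∏ g, f g (x g) = ∏ g, ∑' x, f g x := by
  induction s with
  | zero => simp
  | succ s ih =>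
    rw [← (Fin.consEquiv fun _ => α).tsum_eq, ENNReal.tsum_prod', Fin.prod_univ_succ, ← ih,
      ← ENNReal.tsum_mul_right]
    refine tsum_congr fun x => ?_
    rw [← ENNReal.tsum_mul_left]
    exact tsum_congr fun y => by simp [Fin.prod_univ_succ, Fin.consEquiv]

/-- the groups of slots -/
def cur (s n : ℕ) (X : Type) : (Fin (s * n) → X) ≃ (Fin s → Fin n → X) :=
  (Equiv.arrowCongr finProdFinEquiv.symm (Equiv.refl X)).trans (Equiv.curry _ _ _)

theorem cur_pres (s n : ℕ) (X : Type) [MeasureSpace X] [SigmaFinite (volume : Measure X)] :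
    MeasurePreserving (cur s n X).symm := by
  have h : Measurable (cur s n X).symm := measurable_pi_lambda _ fun l =>
    (measurable_pi_apply (finProdFinEquiv.symm l).2).comp (measurable_pi_apply _)
  refine ⟨h, (Measure.pi_eq fun t ht => ?_).symm⟩
  rw [Measure.map_apply h (MeasurableSet.univ_pi ht), show (cur s n X).symm ⁻¹' pi univ t =
    pi univ fun g => pi univ fun j => t (finProdFinEquiv (g, j)) from Set.ext fun x =>
      ⟨fun k g _ j _ => by simpa [cur] using k (finProdFinEquiv (g, j)) trivial, fun k l _ => by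
        obtain ⟨⟨g, j⟩, rfl⟩ := finProdFinEquiv.surjective l
        simpa [cur] using k g trivial j trivial⟩,
    volume_pi_pi, ← finProdFinEquiv.prod_comp, Fintype.prod_prod_type]
  simp only [volume_pi_pi]

theorem lint_cur {s n : ℕ} {X : Type} [MeasureSpace X] [SigmaFinite (volume : Measure X)]
    (f : Fin s → (Fin n → X) → ℝ≥0∞) (hf : ∀ g, Measurable (f g)) :
    ∫⁻ o, ∏ g, f g (cur s n X o g) = ∏ g, ∫⁻ o, f g o := by
  rw [← (cur_pres s n X).lintegral_comp (f := fun o => ∏ g, f g (cur s n X o g))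
    (Finset.measurable_prod _ fun g _ => (hf g).comp
      (measurable_pi_lambda (fun o => cur s n X o g) fun j => measurable_pi_apply _))]
  simp only [Equiv.apply_symm_apply]
  exact FiniH.lint_pi volume f hf

variable {p a n : ℕ} {M : Fb (p + a) p} (C : NS M)

/-- the sheets -/
def A (y : M.Y.X) (o : Fin n → Cm a) : Set (Fin n → M.X.X) :=
  {x | (y, x) ∈ C.N n ∧ ∀ j i, C.w i (x j) = o j i}

theorem sm_eq (u : Pt M n → ℝ≥0∞) (y : M.Y.X) (o : Fin n → Cm a) :
    Sm C u y o = ∑' x, (A C y o).indicator (fun x => u (y, x)) x :=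
  tsum_subtype (A C y o) fun x => u (y, x)

theorem mem_cur {s : ℕ} {y : M.Y.X} (hy : y ∉ C.Q) (o : Fin (s * n) → Cm a)
    (x : Fin (s * n) → M.X.X) : x ∈ A C y o ↔ ∀ g, cur s n _ x g ∈ A C y (cur s n _ o g) :=
  ⟨fun h _ => ⟨⟨fun _ => h.1.1 _, hy, fun _ => h.1.2.2 _⟩, fun _ => h.2 _⟩, fun h =>
    ⟨⟨finProdFinEquiv.surjective.forall.2 fun l => (h l.1).1.1 l.2, hy,
      finProdFinEquiv.surjective.forall.2 fun l => (h l.1).1.2.2 l.2⟩,
      finProdFinEquiv.surjective.forall.2 fun l => (h l.1).2 l.2⟩⟩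

theorem sm_prod {s : ℕ} (u : Fin s → Pt M n → ℝ≥0∞) {y : M.Y.X} (hy : y ∉ C.Q)
    (o : Fin (s * n) → Cm a) : Sm C (fun q : Pt M (s * n) => ∏ g, u g (grp g q)) y o =
      ∏ g, Sm C (u g) y (cur s n _ o g) := by
  simp only [sm_eq]
  rw [← tsum_pi, ← (cur s n M.X.X).tsum_eq]
  refine tsum_congr fun x => ?_
  by_cases h : x ∈ A C y o
  · rw [indicator_of_mem h]
    exact Finset.prod_congr rfl fun g _ =>
      (indicator_of_mem ((mem_cur C hy o x).1 h g) fun x => u g (y, x)).symm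
  · obtain ⟨g, hg⟩ := not_forall.1 (mt (mem_cur C hy o x).2 h)
    rw [indicator_of_notMem h, Finset.prod_eq_zero (Finset.mem_univ g) (indicator_of_notMem hg _)]

theorem sm_perm (σ : Equiv.Perm (Fin n)) (u : Pt M n → ℝ≥0∞) (y : M.Y.X) (o : Fin n → Cm a) :
    Sm C (fun q => u (sel σ q)) y o = Sm C u y fun j => o (σ j) :=
  (Equiv.subtypeEquiv (Equiv.arrowCongr σ.symm (Equiv.refl M.X.X)) fun _ =>
    ⟨fun h => ⟨⟨fun _ => h.1.1 _, h.1.2.1, fun _ => h.1.2.2 _⟩, fun _ => h.2 _⟩, fun h =>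
      ⟨⟨σ.surjective.forall.2 h.1.1, h.1.2.1, σ.surjective.forall.2 h.1.2.2⟩,
        σ.surjective.forall.2 h.2⟩⟩).tsum_eq
    fun x : {x : Fin n → M.X.X // (y, x) ∈ C.N n ∧ ∀ j i, C.w i (x j) = o (σ j) i} => u (y, x.1)

end IprH

open IprH in
theorem ipr_of (h : MSM) : IPR := fun p a n M C hM => by
  refine ⟨fun s u hu y hy => ?_, fun σ u y => ?_⟩
  · simp only [I_eq, sm_prod C u hy]
    exact lint_cur (fun g => Sm C (u g) y) fun g => (h p a n M C hM _ (hu g)).2 y
  · simp only [I_eq, sm_perm]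
    exact (volume_preserving_arrowCongr' σ.symm (MeasurableEquiv.refl (Cm a))
      (MeasurePreserving.id _)).lintegral_comp_emb (MeasurableEquiv.measurableEmbedding _) (Sm C u y)

end Vale.Agent.P281Z.Gi
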