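import Vale.Agent.P281Z.Gi.Msm
import Vale.Agent.P281Z.Gi.Ipr

/-!
# P281Z, block III: the calculus of the fibre integrals without hypotheses
-/

namespace Vale.Agent.P281Z.Gi

theorem icalc : Gt.ICALC := icalc_of (ipr_of msm)

end Vale.Agent.P281Z.Gi
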