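import Vale.Agent.P281Z.Gi.Sk2
import Vale.Agent.P281Z.Gi.Area
import Vale.Agent.P281Z.Gt.Cf
import Vale.Agent.P281Z.Gl.Thn
import Vale.Agent.P281Z.Bs.Push

/-!
# P281Z, block III: fibre integrals and local integrability on a model
-/

open scoped Manifold ContDiff Topology ENNReal
open Set Filter MeasureTheory
open Vale.Agent.P272.K
open Vale.Agent.P277Z (Hol at_chart)
open Vale.Agent.P281Z.Gt
open Vale.Agent.P298.H707 (Fib lintegral_fib measurable_fib)

noncomputable section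

namespace Vale.Agent.P281Z.Gi

namespace I1A

/-- the splitting of the coordinates -/
def sp (p n a : ℕ) : Cm (p + n * a) ≃L[ℂ] Cm p × (Fin n → Cm a) :=
  LinearEquiv.toContinuousLinearEquiv
    { toFun := fun c => (fun i => c (.castAdd _ i), fun j i => c (.natAdd p (finProdFinEquiv (j, i))))
      map_add' := fun _ _ => rfl
      map_smul' := fun _ _ => rfl
      invFun := fun d => Fin.append d.1 fun k =>
        d.2 (finProdFinEquiv.symm k).1 (finProdFinEquiv.symm k).2
      left_inv := fun c => funext (Fin.addCases (fun i => Fin.append_left _ _ i) fun k =>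
        (Fin.append_right _ _ k).trans (by simp only [Prod.mk.eta, Equiv.apply_symm_apply]))
      right_inv := fun d => by
        simp only [Fin.append_left, Fin.append_right, Equiv.symm_apply_apply] }

theorem sp_fin {p n a : ℕ} (G : Cm p × (Fin n → Cm a) → ℝ≥0∞) :
    ∫⁻ c, G (sp p n a c) < ⊤ ↔ ∫⁻ d, G d ∂(volume.prod volume) < ⊤ := by
  have : (volume : Measure (Fin n → Cm a)).IsAddHaarMeasure := Measure.pi.isAddHaarMeasure _
  have : ((volume : Measure (Cm p)).prod (volume : Measure (Fin n → Cm a))).IsAddHaarMeasure :=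
    Measure.prod.instIsAddHaarMeasure _ _
  have k := lintegral_map_equiv (μ := volume) G (sp p n a).toHomeomorph.toMeasurableEquiv
  have k1 := Measure.isAddLeftInvariant_eq_smul (volume.map (sp p n a)) (volume.prod volume)
  have k2 := Measure.addHaarScalarFactor_pos_of_isAddHaarMeasure (volume.map (sp p n a))
    (volume.prod volume)
  refine Iff.trans (b := ∫⁻ d, G d ∂(volume.map (sp p n a)) < ⊤) (k.symm ▸ Iff.rfl) ?_
  rw [k1, lintegral_smul_measure, ENNReal.smul_def, smul_eq_mul, ENNReal.mul_lt_top_iff]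
  exact ⟨fun h => h.elim (fun h => h.2) fun h => h.elim (fun h => absurd h (by simpa using k2.ne'))
    fun h => h ▸ ENNReal.zero_lt_top, fun h => .inl ⟨ENNReal.coe_lt_top, h⟩⟩

variable {p a n : ℕ} {M : Fb (p + a) p} {C : NS M} (W : Pw M n (p + n * a) C.Q)
  (e' : Chart p M.Y.X) {u : Pt M n → ℝ≥0∞}

theorem sp_co (q : Pt M n) : sp p n a (C.co e' q) = (e' q.1, fun j i => C.w i (q.2 j)) :=
  (sp p n a).apply_symm_apply (e' q.1, fun j i => C.w i (q.2 j))

/-- the nice points of `O` with the coordinates `c` -/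
def St (O : Set W.V.X) (c : Cm (p + n * a)) : Set W.V.X :=
  {v | (v ∈ O ∧ W.γ v ∈ C.N n) ∧ C.co e' (W.γ v) = c}

variable {W e'}

theorem loc (hM : M.Ok) (hu : C.Ms u) {e : Chart (p + n * a) W.V.X} {O : Set W.V.X}
    (hO : IsOpen O) (h : ∀ v ∈ O, At e v ∧ At e' (W.γ v).1) :
    Measurable (fun c => ∑' v : St W e' O c, u (W.γ v)) ∧ ∫⁻ c, ∑' v : St W e' O c, u (W.γ v) =
      ∫⁻ z in e '' {v | v ∈ O ∧ W.γ v ∈ C.N n},
        u (W.γ (e.symm z)) * ‖C.jn e' W.γ e (e.symm z)‖ₑ ^ 2 := by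
  classical
  obtain ⟨t1, -, -, t4, -⟩ := thn p a n M C W hM
  have h1 : IsOpen (e '' {v | v ∈ O ∧ W.γ v ∈ C.N n}) := e.isOpen_image_of_subset_source
    (hO.inter (show IsOpen {v | W.γ v ∈ C.N n} by
      simpa only [compl_ofPred, not_not] using t1.closed.isOpen_compl))
    fun v hv => (h v hv.1).1.2
  set U := e '' {v | v ∈ O ∧ W.γ v ∈ C.N n}
  let X : Cm (p + n * a) → Cm (p + n * a) := fun z => C.co e' (W.γ (e.symm z))
  have h2 : ∀ z ∈ U, AnalyticAt ℂ X z ∧ LinearMap.det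
      (fderiv ℂ X z : Cm (p + n * a) →ₗ[ℂ] Cm (p + n * a)) ≠ 0 := by
    rintro _ ⟨v, ⟨a1, a2⟩, rfl⟩
    exact ⟨.pi fun i => CfA.hol_cog (g := fun _ => C.w) (W.tm v) (h v a1).2
      (fun j i => (C.mr i).hol _ (a2.2.2 j)) i e (h v a1).1, t4 v a2 e e' (h v a1).1 (h v a1).2⟩
  let _ : MeasurableSpace (Pt M n) := borel _
  have : BorelSpace (Pt M n) := ⟨rfl⟩
  let F : Cm (p + n * a) → ℝ≥0∞ := fun z => (C.N n).indicator u
    (U.piecewise (fun z => W.γ (e.symm z)) (fun _ => W.γ (e.symm 0)) z)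
  have h3 : Measurable F := Measurable.comp hu (ContinuousOn.measurable_piecewise
    ((Thn.cont W).comp_continuousOn (e.continuousOn_symm.mono (by
      rintro _ ⟨v, hv, rfl⟩
      exact (h v hv.1).1.mem_target))) continuousOn_const h1.measurableSet)
  have h4 : ∀ v ∈ O, W.γ v ∈ C.N n → F (e v) = u (W.γ v) := fun v a1 a2 => by
    simp only [F, piecewise_eq_of_mem U _ _ ⟨v, ⟨a1, a2⟩, rfl⟩, (h v a1).1.left_inv,
      indicator_of_mem a2]
  have h5 : ∀ c, ∑' v : St W e' O c, u (W.γ v) = ∑' z : {z | z ∈ U ∧ X z = c}, F z := fun c => by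
    have k : {z | z ∈ U ∧ X z = c} = e '' St W e' O c := Set.ext fun z => by
      refine ⟨?_, ?_⟩
      · rintro ⟨⟨v, hv, rfl⟩, k⟩
        exact ⟨v, ⟨hv, by simpa only [X, (h v hv.1).1.left_inv] using k⟩, rfl⟩
      · rintro ⟨v, ⟨hv, k⟩, rfl⟩
        exact ⟨⟨v, hv, rfl⟩, by simpa only [X, (h v hv.1).1.left_inv] using k⟩
    rw [k, tsum_image F (e.injOn.mono fun v hv => (h v hv.1.1).1.2)]
    exact tsum_congr fun v => (h4 v v.2.1.1 v.2.1.2).symm
  have h6 : ∀ c, {z | z ∈ U ∧ X z = c} = Fib U X c := fun c => Set.ext fun z =>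
    ⟨fun k => ⟨k.1, k.2, by
      rw [detR_fderiv (h2 z k.1).1.differentiableAt]
      exact pow_ne_zero _ (norm_ne_zero_iff.2 (h2 z k.1).2)⟩, fun k => ⟨k.1, k.2.1⟩⟩
  simp only [h5]
  refine ⟨?_, (area _ U X F h1 h2 h3).trans (setLIntegral_congr_fun h1.measurableSet ?_)⟩
  · have k := measurable_fib h1 (X := X)
      (fun z hz => ((h2 z hz).1.contDiffAt.restrict_scalars ℝ).contDiffWithinAt) h3
    rwa [show (fun c => ∑' z : {z | z ∈ U ∧ X z = c}, F z) = fun c => ∑' z : Fib U X c, F z from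
      funext fun c => by rw [h6]]
  · rintro _ ⟨v, ⟨a1, a2⟩, rfl⟩
    simp only [h4 v a1 a2, (h v a1).1.left_inv]
    rfl

/-- the sum over the points of the model is at most the sum over the sheets -/
theorem le_sm {O : Set W.V.X} {U : Set (Cm p)} (h : ∀ v ∈ O, At e' (W.γ v).1 ∧ e' (W.γ v).1 ∈ U)
    (c : Cm (p + n * a)) : ∑' v : St W e' O c, u (W.γ v) ≤
      U.indicator (fun b => Sm C u (e'.symm b) (sp p n a c).2) (sp p n a c).1 := by
  have k : ∀ v : St W e' O c, sp p n a c = (e' (W.γ v).1, fun j i => C.w i ((W.γ v).2 j)) :=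
    fun v => (congrArg _ v.2.2.symm).trans (sp_co e' _)
  have k1 : ∀ v : St W e' O c, (e'.symm (sp p n a c).1, (W.γ v).2) = W.γ v := fun v => by
    rw [k v, (h v v.2.1.1).1.left_inv]
  rcases isEmpty_or_nonempty (St W e' O c) with b | ⟨⟨v₀⟩⟩
  · rw [tsum_empty]
    exact zero_le
  rw [indicator_of_mem (by rw [k v₀]; exact (h v₀ v₀.2.1.1).2)]
  refine le_trans (le_of_eq (tsum_congr fun v => congrArg u (k1 v).symm))
    (ENNReal.tsum_comp_le_tsum_of_injective (f := fun v : St W e' O c =>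
      (⟨(W.γ v).2, (k1 v).symm ▸ v.2.1.2, fun j i => by rw [k v]⟩ : {x : Fin n → M.X.X //
        (e'.symm (sp p n a c).1, x) ∈ C.N n ∧ ∀ j i, C.w i (x j) = (sp p n a c).2 j i}))
      (fun v v' b => Subtype.ext (Thn.inj W v'.2.1.2.2.1 ?_)) fun x => u (_, x.1))
  rw [← k1 v, ← k1 v', show (W.γ v).2 = (W.γ v').2 from congrArg Subtype.val b]

/-- the converse, for a finite family of open sets -/
theorem sm_le {ι : Type} [Fintype ι] {O : ι → Set W.V.X} {b : Cm p} (hb : b ∈ e'.target)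
    (h : ∀ v, (W.γ v).1 = e'.symm b → ∃ i, v ∈ O i) (o : Fin n → Cm a) :
    Sm C u (e'.symm b) o ≤ ∑ i, ∑' v : St W e' (O i) ((sp p n a).symm (b, o)), u (W.γ v) := by
  refine le_trans ?_ (ENNReal.tsum_iUnion_le (fun v => u (W.γ v)) _)
  have k : ∀ x : {x : Fin n → M.X.X // (e'.symm b, x) ∈ C.N n ∧ ∀ j i, C.w i (x j) = o j i},
      ∃ v : ⋃ i, St W e' (O i) ((sp p n a).symm (b, o)), W.γ v = (e'.symm b, x.1) := fun x => by
    obtain ⟨v, hv, -⟩ := W.bij _ x.2.1.1 x.2.1.2.1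
    obtain ⟨i, hi⟩ := h v (congrArg Prod.fst hv)
    refine ⟨⟨v, mem_iUnion.2 ⟨i, ⟨hi, hv ▸ x.2.1⟩, ?_⟩⟩, hv⟩
    rw [ContinuousLinearEquiv.eq_symm_apply, sp_co, hv]
    exact Prod.ext (e'.right_inv hb) (funext fun j => funext (x.2.2 j))
  choose g hg using k
  refine le_trans (le_of_eq (tsum_congr fun x => congrArg u (hg x).symm))
    (ENNReal.tsum_comp_le_tsum_of_injective (f := g) (fun x x' k => Subtype.ext ?_)
      fun v => u (W.γ v))
  exact congrArg Prod.snd ((hg x).symm.trans (k ▸ hg x'))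

end I1A

open I1A in
/-- **I1** -/
theorem i1 : Gt.I1 := by
  intro p a n M C hM W u y e' he' hu
  obtain ⟨t1, t2, -⟩ := thn p a n M C W hM
  refine ⟨fun h => ?_, fun ⟨U, hU, h⟩ v hv e he => ?_⟩
  · have k : ∀ v : {v | (W.γ v).1 = y}, ∃ O : Set W.V.X, IsOpen O ∧ v.1 ∈ O ∧
        Measurable (fun c => ∑' v : St W e' O c, u (W.γ v)) ∧
        ∫⁻ c, ∑' v : St W e' O c, u (W.γ v) < ⊤ := fun v => by
      have he := at_chart (n := p + n * a) v.1
      obtain ⟨U, hU, k⟩ := h v v.2 _ he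
      obtain ⟨O, k1, k2, k3⟩ := _root_.eventually_nhds_iff.1 (((at_near he).and
        (t2.cont.continuousAt.eventually (at_near (v.2.symm ▸ he')))).and
        (((chartAt _ v.1).continuousAt he.2).eventually_mem hU))
      obtain ⟨k4, k5⟩ := loc hM hu k2 fun v hv => (k1 v hv).1
      refine ⟨O, k2, k3, k4, k5.trans_lt (lt_of_le_of_lt (lintegral_mono_set ?_) k)⟩
      rintro _ ⟨v, hv, rfl⟩
      exact (k1 v hv.1).2
    choose O k1 k2 k3 k4 using k
    obtain ⟨T, hT⟩ := (isClosed_singleton.preimage t2.cont).isCompact.elim_finite_subcover O k1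
      fun v hv => mem_iUnion.2 ⟨⟨v, hv⟩, k2 _⟩
    have k5 : ∀ᶠ y' in 𝓝 y, ∀ v, (W.γ v).1 = y' → ∃ i : T, v ∈ O i := by
      have := t2.cont.isClosedMap.eventually_nhds_fiber (p := fun v => ∃ i : T, v ∈ O i) y
        fun v hv => by
          obtain ⟨i, a1, a2⟩ := mem_iUnion₂.1 (hT hv)
          filter_upwards [(k1 i).mem_nhds a2] with v' a3 using ⟨⟨i, a1⟩, a3⟩
      exact this
    obtain ⟨U, a1, a2, a3⟩ := _root_.eventually_nhds_iff.1 ((at_ev he' k5).and
      (e'.open_target.mem_nhds he'.mem_target))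
    let G : Cm p × (Fin n → Cm a) → ℝ≥0∞ := fun d =>
      ∑ i : T, ∑' v : St W e' (O i) ((sp p n a).symm d), u (W.γ v)
    have a4 : Measurable G := Finset.measurable_sum _ fun i _ =>
      (k3 i).comp (sp p n a).symm.continuous.measurable
    have a5 := (sp_fin G).1 (by
      rw [lintegral_congr (g := fun c => ∑ i : T, ∑' v : St W e' (O i) c, u (W.γ v)) fun c => by
        rw [← (sp p n a).symm_apply_apply c, (sp p n a).apply_symm_apply],
        lintegral_finsetSum _ fun (i : T) _ => k3 i]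
      exact ENNReal.sum_lt_top.2 fun i _ => k4 i)
    rw [lintegral_prod G a4.aemeasurable] at a5
    exact ⟨U, a2.mem_nhds a3, lt_of_le_of_lt ((setLIntegral_mono' a2.measurableSet fun b hb =>
      lintegral_mono (sm_le (a1 b hb).2 (a1 b hb).1)).trans (setLIntegral_le_lintegral _ _)) a5⟩
  · subst hv
    obtain ⟨U₁, b1, b2⟩ := Bs.Push.thin_ae t1 he
    obtain ⟨O, k1, k2, k3⟩ := _root_.eventually_nhds_iff.1 (((at_near he).and
      (t2.cont.continuousAt.eventually ((at_near he').and ((e'.continuousAt he'.2).eventually_mem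
        (interior_mem_nhds.2 hU))))).and ((e.continuousAt he.2).eventually_mem b1))
    obtain ⟨-, k5⟩ := loc hM hu k2 fun v hv => ⟨(k1 v hv).1.1, (k1 v hv).1.2.1⟩
    refine ⟨e '' O, e.image_mem_nhds he.2 (k2.mem_nhds k3), lt_of_le_of_lt
      ((lintegral_mono_set' ?_).trans (k5.ge.trans (lintegral_mono
        (le_sm fun v hv => (k1 v hv).1.2)))) ((sp_fin fun d => (interior U).indicator
          (fun b => Sm C u (e'.symm b) d.2) d.1).2 (lt_of_le_of_lt ((lintegral_prod_le _).trans ?_) h))⟩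
    · filter_upwards [b2] with z a1
      rintro ⟨v, hv, rfl⟩
      refine ⟨v, ⟨hv, not_not.1 fun c => a1 (k1 v hv).2 ?_⟩, rfl⟩
      rwa [(k1 v hv).1.1.left_inv]
    · refine le_trans ?_ (lintegral_mono_set interior_subset)
      rw [← lintegral_indicator isOpen_interior.measurableSet]
      refine lintegral_mono fun b => ?_
      by_cases c : b ∈ interior U
      · simp only [indicator_of_mem c]
        rfl
      · simp only [indicator_of_notMem c, lintegral_zero, le_refl]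

theorem i1_of (_ : Gt.THN) : Gt.I1 := i1

end Vale.Agent.P281Z.Gi
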