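import Vale.Agent.P281Z.Gi.Sk

/-!
# P281Z, block III: semicontinuity of the fibre integrals
-/

open scoped Topology ENNReal
open Set Filter MeasureTheory
open Vale.Agent.P272.K
open Vale.Agent.P281Z.Gt

noncomputable section

namespace Vale.Agent.P281Z.Gi

namespace LscH

variable {Z X : Type} [TopologicalSpace Z]

theorem mul {s : Set Z} {f g : Z → ℝ≥0∞} (hf : LowerSemicontinuousOn f s)
    (hg : LowerSemicontinuousOn g s) : LowerSemicontinuousOn (fun x => f x * g x) s := fun x hx =>
  lowerSemicontinuousWithinAt_iff_le_liminf.2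
    ((mul_le_mul' (hf.le_liminf x hx) (hg.le_liminf x hx)).trans ENNReal.le_liminf_mul)

theorem prod {s : Set Z} {ι : Type*} (T : Finset ι) {f : ι → Z → ℝ≥0∞}
    (hf : ∀ i ∈ T, LowerSemicontinuousOn (f i) s) :
    LowerSemicontinuousOn (fun x => ∏ i ∈ T, f i x) s := by
  classical
  induction T using Finset.induction_on with
  | empty => simpa using lowerSemicontinuousOn_const
  | insert i T hi ih =>
    simp only [Finset.prod_insert hi]
    exact mul (hf i (Finset.mem_insert_self _ _)) (ih fun j hj => hf j (Finset.mem_insert_of_mem hj))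

theorem rpow {s : Set Z} {F : Z → ℂ} (hF : ContinuousOn F s) (r : ℝ) :
    LowerSemicontinuousOn (fun x => ‖F x‖ₑ ^ r) s :=
  (ENNReal.continuous_rpow_const.comp_continuousOn hF.enorm).lowerSemicontinuousOn

theorem sheets [TopologicalSpace X] [T2Space X] {P : Z → X → Prop} {G : Z → X → ℝ≥0∞} {c : Z}
    (h : ∀ x, P c x → ∃ τ : Z → X, ContinuousAt τ c ∧ τ c = x ∧ (∀ᶠ c' in 𝓝 c, P c' (τ c')) ∧
      LowerSemicontinuousAt (fun c' => G c' (τ c')) c) :
    LowerSemicontinuousAt (fun c' => ∑' x : {x // P c' x}, G c' x) c := by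
  choose τ h1 h2 h3 h4 using fun x : {x // P c x} => h x x.2
  intro r hr
  obtain ⟨T, hT⟩ := lt_iSup_iff.1 (hr.trans_eq ENNReal.tsum_eq_iSup_sum)
  filter_upwards [lowerSemicontinuousAt_sum (a := T) (fun x _ => h4 x) r (by simpa only [h2] using hT),
    (eventually_all_finset T).2 fun x _ => h3 x,
    (eventually_all_finset T).2 fun x _ => (eventually_all_finset T).2 fun x' _ =>
      eventually_imp_distrib_left.2 fun k : x ≠ x' => ((h1 x).ne_iff_eventually_ne (h1 x')).1
        fun e => k (Subtype.ext ((h2 x).symm.trans (e.trans (h2 x'))))] with c' a b d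
  refine a.trans_le ((T.tsum_subtype fun x => G c' (τ x c')).symm.trans_le
    (ENNReal.tsum_comp_le_tsum_of_injective (f := fun x : T => (⟨τ x c', b x x.2⟩ : {x // P c' x}))
      (fun x x' e => Subtype.ext (of_not_not fun k => d x x.2 x' x'.2 k (congrArg Subtype.val e)))
      fun x => G c' x))

end LscH

/-- **LSM** -/
theorem lsm : LSM := fun _ _ _ _ _ => LscH.mul

/-- **LSC** -/
theorem lsc_of (h : SH) : LSC := by
  intro p a n M C F hM hF
  have h1 : LowerSemicontinuous fun c : M.Y.X × (Fin n → Cm a) => Sm C F c.1 c.2 := by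
    refine fun c => LscH.sheets (G := fun c x => F (c.1, x)) (c := c)
      (P := fun c x => (c.1, x) ∈ C.N n ∧ ∀ j i, C.w i (x j) = c.2 j i) fun x ⟨k1, k2⟩ => ?_
    choose γ hγ using fun j => h p a M C hM (x j) (k1.2.2 j)
    have k3 : ∀ j, fw C (x j) = (c.1, c.2 j) := fun j => Prod.ext (k1.1 j) (funext (k2 j))
    have k4 : ∀ j, Tendsto (fun c : M.Y.X × (Fin n → Cm a) => (c.1, c.2 j)) (𝓝 c)
        (𝓝 (fw C (x j))) := fun j => by
      rw [k3]
      exact (continuous_fst.prodMk ((continuous_apply j).comp continuous_snd)).tendsto c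
    have k5 : (fun j => γ j (c.1, c.2 j)) = x := funext fun j => by rw [← k3, (hγ j).val]
    have k6 : ContinuousAt (fun c : M.Y.X × (Fin n → Cm a) => fun j => γ j (c.1, c.2 j)) c :=
      continuousAt_pi.2 fun j => by
        rw [ContinuousAt, ← k3]
        exact (hγ j).cont.self_of_nhds.tendsto.comp (k4 j)
    have k7 : ∀ᶠ c' in 𝓝 c, (c'.1, fun j => γ j (c'.1, c'.2 j)) ∈ C.N n ∧
        ∀ j i, C.w i (γ j (c'.1, c'.2 j)) = c'.2 j i := by
      filter_upwards [eventually_all.2 fun j => (k4 j).eventually (hγ j).rinv,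
        continuousAt_fst.eventually (C.thinQ.closed.isOpen_compl.mem_nhds k1.2.1)] with c' b d
      exact ⟨⟨fun j => congrArg Prod.fst (b j).1, d, fun j => (b j).2⟩,
        fun j => congrFun (congrArg Prod.snd (b j).1)⟩
    refine ⟨_, k6, k5, k7, fun r hr => ?_⟩
    have k8 := tendsto_nhdsWithin_iff.2 ⟨continuousAt_fst.prodMk k6, k7.mono fun _ b => b.1⟩
    exact k8.eventually (hF _ k7.self_of_nhds.1 r hr)
  have h2 : ∀ y, LowerSemicontinuous (Sm C F y) := fun y => h1.comp (Continuous.prodMk_right y)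
  refine ⟨h1, lowerSemicontinuous_iff_le_liminf.2 fun y => (lintegral_mono fun o =>
    (h1.comp (Continuous.prodMk_left o)).le_liminf y).trans
      (lintegral_liminf_le fun y => (h2 y).measurable), fun q hq k e => ?_⟩
  have : ∀ _ : Fin n, (volume : Measure (Cm a)).IsOpenPosMeasure := fun _ => inferInstance
  refine (((h2 q.1).isOpen_preimage 0).measure_pos volume ⟨fun j i => C.w i (q.2 j), ?_⟩).ne'
    (measure_mono_null (fun o ho => ne_of_gt ho) ((lintegral_eq_zero_iff (h2 _).measurable).1 e))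
  exact (pos_iff_ne_zero.2 k).trans_le (ENNReal.le_tsum (f := fun x : {x : Fin n → M.X.X //
    (q.1, x) ∈ C.N n ∧ ∀ j i, C.w i (x j) = C.w i (q.2 j)} => F (q.1, x.1)) ⟨q.2, hq, fun _ _ => rfl⟩)

end Vale.Agent.P281Z.Gi
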