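import Vale.Agent.P281Z.Gi.Sk

/-!
# P281Z, block III, the integral bounds: sheets, analyticity and continuity on the fibre powers
-/

open scoped Manifold ContDiff Topology
open Set Filter Function
open Vale.Agent.P272.K
open Vale.Agent.P277Z (Hol at_chart jd)
open Vale.Agent.P277Z.Slc (Ind)
open Vale.Agent.P281Z.Gt

noncomputable section

namespace Vale.Agent.P281Z.Gi

namespace ShA

section mf

variable {k : ℕ} {T : Type} [TopologicalSpace T] [ChartedSpace (Cm k) T] {t : T}

theorem anV_app {p a : ℕ} {u : T → Cm p} {o : T → Cm a} (hu : AnV k u t) (ho : AnV k o t) :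
    AnV k (fun s => (Fin.append (u s) (o s) : Cm (p + a))) t :=
  .pi (Fin.addCases (fun c => by simpa only [Fin.append_left] using hu.hol c)
    fun c => by simpa only [Fin.append_right] using ho.hol c)

/-- a non zero Jacobian determinant gives independent differentials -/
theorem ind_jd [IsManifold 𝓘(ℂ, Cm k) ω T] {h : Fin k → T → ℂ} {e : Chart k T} (he : At e t)
    (hh : ∀ i, Hol k (h i) t) (hj : jd h e t ≠ 0) : Ind k h t := by
  refine Ind.of_chart hh he ((P277Z.Slc.ind_iff_surj _).2 ?_)
  rw [jd, fderiv_pi fun i => (hh i e he).differentiableAt] at hj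
  exact (LinearMap.equivOfDetNeZero _ hj).surjective

end mf

variable {E : Type} [NormedAddCommGroup E] [NormedSpace ℂ E]

theorem anV_of {k : ℕ} {g : Cm k → E} {t : Cm k} (h : AnalyticAt ℂ g t) : AnV k g t := by
  rintro e ⟨rfl, -⟩
  exact h

/-- a function which is holomorphic on the fibre power is analytic along a family of points with
parameters in a vector space -/
theorem an_par [FiniteDimensional ℂ E] {N p n : ℕ} {M : Fb N p} {F : Pt M n → ℂ} {Γ : E → Pt M n}
    {v : E} (hF : HolT F (Γ v))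
    (h : ∀ k (L : Cm k →L[ℂ] E) (t : Cm k), L t = v → Tm k (fun s => Γ (L s)) t) :
    AnalyticAt ℂ (fun v => F (Γ v)) v := by
  let L : Cm (Module.finrank ℂ E) ≃L[ℂ] E := .ofFinrankEq (by simp)
  have h1 : AnalyticAt ℂ (fun s => F (Γ (L s))) (L.symm v) :=
    hF _ _ (fun s => Γ (L s)) _ (h _ L.toContinuousLinearMap (L.symm v) (L.apply_symm_apply v))
      (congrArg Γ (L.apply_symm_apply v)) _ (at_chart (L.symm v))
  simpa only [L.apply_symm_apply] using h1.fun_comp (f := L.symm) (L.symm.analyticAt v)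

end ShA

open ShA

/-- **SH** -/
theorem sh : SH := by
  intro p a M C hM x hx
  have hf := hM.fibn.hol
  have he := at_chart (n := p) (M.f x)
  generalize chartAt (Cm p) (M.f x) = e at he
  obtain ⟨Θ, h1, h2, h3, h4⟩ := exists_co (ind_jd (at_chart x) (Fin.addCases
    (fun c => by simpa only [Fin.append_left] using hf.hol (hol_chart he c))
    fun c => by simpa only [Fin.append_right] using (C.mr c).hol x hx) (C.et x hx _ e (at_chart x) he))
    (d := 0) (by simp) ((hf.cont.continuousAt.eventually (at_near he)).and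
      (C.thinS.closed.isOpen_compl.mem_nhds hx))
  let G : M.Y.X × Cm a → Cm (p + a) × Cm 0 := fun c => (Fin.append (e c.1) c.2, 0)
  have h5 : ∀ y ∈ Θ.source, G (fw C y) = Θ y := fun y hy =>
    Prod.ext ((funext (Fin.addCases (fun c => by simp only [G, fw, Fin.append_left])
      fun c => by simp only [G, fw, Fin.append_right])).trans (h4 y hy).symm) (Subsingleton.elim _ _)
  have h6 : ∀ c : M.Y.X × Cm a, At e c.1 → ContinuousAt G c := fun c hc =>
    ((Fin.continuous_append p a).continuousAt.comp (f := fun c : M.Y.X × Cm a => (e c.1, c.2))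
      (((e.continuousAt hc.2).comp continuousAt_fst).prodMk continuousAt_snd)).prodMk
      continuousAt_const
  have h7 : ∀ᶠ c in 𝓝 (fw C x), At e c.1 ∧ G c ∈ Θ.target :=
    (continuousAt_fst.eventually (at_near he)).and ((h6 _ he).eventually_mem
      (Θ.open_target.mem_nhds (h5 x h2 ▸ Θ.map_source h2)))
  refine ⟨fun c => Θ.symm (G c), (congrArg Θ.symm (h5 x h2)).trans (Θ.left_inv h2),
    h7.mono fun c hc => (Θ.continuousAt_symm hc.2).comp (h6 c hc.1), h7.mono fun c hc => ?_,
    mem_of_superset (Θ.open_source.mem_nhds h2) fun y hy =>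
      (congrArg Θ.symm (h5 y hy)).trans (Θ.left_inv hy), h7.mono fun c hc => ?_⟩
  · have k1 := Θ.map_target hc.2
    have k2 := (Fin.appendEquiv p a).injective (a₁ := (_, _)) (a₂ := (_, _))
      (congrArg Prod.fst ((h5 _ k1).trans (Θ.right_inv hc.2)))
    exact ⟨Prod.ext (e.injOn (h3 k1).1.2 hc.1.2 (Prod.ext_iff.1 k2).1) (Prod.ext_iff.1 k2).2,
      (h3 k1).2⟩
  · rintro k T _ _ _ _ _ y o t hy ho rfl
    exact h1.holA (F := fun s => G (y s, o s))
      ((anV_app (hy.anV hc.1) ho).prod (anV_const _ _)) hc.2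

/-- **ANP** -/
theorem anp : ANP := by
  intro p a n M F y ψ u h1 h2 hF
  refine an_par (Γ := fun u' : Fin n → Cm a => (y, fun j => ψ j (u' j))) hF ?_
  rintro k L t rfl
  have h : ∀ j, HolA k a (fun s => L s j) t := fun j =>
    ((ContinuousLinearMap.proj j).comp L).contMDiffAt
  exact ⟨(holM_const y).at t, fun j => HolA.cmp (f := fun s => L s j) (h1 j) (h j),
    eventually_all.2 fun j => (h j).cont.eventually (h2 j)⟩

/-- **CONT** -/
theorem cont : CONT := by
  intro p a n M C F hM q hq hF
  have he := at_chart (n := p) q.1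
  generalize chartAt (Cm p) q.1 = e at he
  choose γ hγ using fun j => sh p a M C hM _ (hq.2.2 j)
  let Γ : Cm p × (Fin n → Cm a) → Pt M n := fun v => (e.symm v.1, fun j => γ j (e.symm v.1, v.2 j))
  let c : Pt M n → Cm p × (Fin n → Cm a) := fun q => (e q.1, fun j i => C.w i (q.2 j))
  have h1 : ∀ q' : Pt M n, Fp q' → At e q'.1 → ∀ j, (e.symm (c q').1, (c q').2 j) = fw C (q'.2 j) :=
    fun q' k1 k2 j => Prod.ext (k2.left_inv.trans (k1 j).symm) rfl
  have h2 : ∀ q' : Pt M n, Fp q' → At e q'.1 → (∀ j, γ j (fw C (q'.2 j)) = q'.2 j) →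
      Γ (c q') = q' := fun q' k1 k2 k3 =>
    Prod.ext k2.left_inv (funext fun j => (congrArg (γ j) (h1 q' k1 k2 j)).trans (k3 j))
  have h3 := h2 q hq.1 he fun j => (hγ j).val
  have h4 : AnalyticAt ℂ (fun v => F (Γ v)) (c q) := by
    refine an_par (h3.symm ▸ hF) fun k L t ht => ?_
    have k1 : HolA k p (fun s => e.symm (L s).1) t := (co_chart he.1).holA
      (anV_of (analyticAt_fst.fun_comp (L.analyticAt t))) (ht ▸ he.mem_target)
    have k2 : ∀ j, AnV k (fun s => (L s).2 j) t := fun j => anV_of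
      (analyticAt_pi_iff.1 (analyticAt_snd.fun_comp (L.analyticAt t)) j)
    have k3 : ∀ j, (e.symm (L t).1, (L t).2 j) = fw C (q.2 j) := fun j => ht ▸ h1 q hq.1 he j
    refine ⟨k1, fun j => (hγ j).hol.self_of_nhds k _ _ _ t k1 (k2 j) (k3 j),
      eventually_all.2 fun j => ?_⟩
    exact ((k1.cont.prodMk (k2 j).cont).eventually (k3 j ▸ (hγ j).rinv)).mono
      fun s hs => congrArg Prod.fst hs.1
  have h5 : ∀ j, ContinuousAt (fun q : Pt M n => q.2 j) q := fun j => by fun_prop
  have h6 : ContinuousAt c q := ((e.continuousAt he.2).comp continuousAt_fst).prodMk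
    (continuousAt_pi.2 fun j => continuousAt_pi.2 fun i =>
      ((C.mr i).hol _ (hq.2.2 j)).cont.comp (f := fun q : Pt M n => q.2 j) (h5 j))
  refine (h4.continuousAt.comp h6).continuousWithinAt.congr_of_eventuallyEq ?_ (congrArg F h3).symm
  filter_upwards [self_mem_nhdsWithin, nhdsWithin_le_nhds ((continuousAt_fst.eventually
    (at_near he)).and (eventually_all.2 fun j => (h5 j).eventually (hγ j).linv))] with q' k1 k2
    using (congrArg F (h2 q' k1.1 k2.1 k2.2)).symm

end Vale.Agent.P281Z.Gi
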