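import Vale.Agent.P281Z.Gi.Sk2
import Vale.Agent.P281Z.Gi.Sh
import Vale.Agent.P281Z.Gi.Cova
import Vale.Agent.P281Z.Gi.Lsc
import Vale.Agent.P284Z.Z.Mean
import Vale.Agent.P284.H468.Sub

/-!
# P281Z, block III: the sub mean value inequality on the pieces
-/

open scoped Manifold ContDiff Topology ENNReal
open Set Filter MeasureTheory
open Vale.Agent.P272.K Vale.Agent.P285.H281.FD
open Vale.Agent.P281Z.Gt
open Vale.Agent.P298.H707 (Fib lintegral_fib)

noncomputable section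

namespace Vale.Agent.P281Z.Gi

namespace IpcH

open CovH

theorem bp {W : Type} [NormedAddCommGroup W] [NormedSpace ℂ W] {h : W → ℂ} {U : Set W}
    (hU : IsOpen U) (hh : AnalyticOnNhd ℂ h U) {t : ℝ} (ht : 0 < t) :
    P284Z.Z.BP (fun v => ‖h v‖ ^ t) U := by
  refine ⟨hU, ⟨(hh.continuousOn.norm.rpow_const fun _ _ => .inr ht.le).upperSemicontinuousOn,
    fun z w hw => ?_⟩, 0, fun _ _ => by positivity⟩
  have := P284.H468.rpow_le_average (G := fun ζ => h (z + ζ • w)) one_pos ht fun ζ hζ =>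
    (hh _ (hw ζ (by simpa using hζ))).fun_comp (f := fun ζ : ℂ => z + ζ • w) (by fun_prop)
  simpa only [zero_smul, add_zero] using this

theorem enr (z : ℂ) {t : ℝ} (ht : 0 ≤ t) : ENNReal.ofReal (‖z‖ ^ t) = ‖z‖ₑ ^ t := by
  rw [← ofReal_norm, ENNReal.ofReal_rpow_of_nonneg (norm_nonneg _) ht]

theorem ball_pi {a n : ℕ} {r : ℝ} {u : Fin n → Cm a} (hu : u ∈ Metric.ball 0 r) (j : Fin n) :
    u j ∈ Metric.ball 0 r :=
  mem_ball_zero_iff.2 ((norm_le_pi_norm u j).trans_lt (mem_ball_zero_iff.1 hu))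

variable {p a n : ℕ} {M : Fb (p + a) p} {C : NS M} {y : M.Y.X} {r : ℝ} {ψ : Cm a → M.X.X}

variable (C n r ψ) in
/-- the nice part of the piece -/
def U : Set (Fin n → Cm a) := {u ∈ Metric.ball (0 : Fin n → Cm a) r | ∀ j, ψ (u j) ∉ C.S}

theorem u_cont (h : Pc y r ψ) {u : Fin n → Cm a} (hu : u ∈ Metric.ball 0 r) (j : Fin n) :
    ContinuousAt (fun v : Fin n → Cm a => ψ (v j)) u :=
  ContinuousAt.comp (f := fun v : Fin n → Cm a => v j) (h.hol _ (ball_pi hu j)).cont
    (continuous_apply j).continuousAt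

theorem u_open (h : Pc y r ψ) : IsOpen (U n C r ψ) := isOpen_iff_mem_nhds.2 fun u hu => by
  filter_upwards [Metric.isOpen_ball.mem_nhds hu.1, eventually_all.2 fun j =>
    (u_cont h hu.1 j).eventually (C.thinS.closed.isOpen_compl.mem_nhds (hu.2 j))] with v p1 p2
    using ⟨p1, p2⟩

theorem u_mem (h : Pc y r ψ) (hy : y ∉ C.Q) {u : Fin n → Cm a} (hu : u ∈ U n C r ψ) :
    ((y, fun j => ψ (u j)) : Pt M n) ∈ C.N n :=
  ⟨fun j => h.fib _ (ball_pi hu.1 j), hy, hu.2⟩

theorem u_an (h : Pc y r ψ) {u : Fin n → Cm a} (hu : u ∈ U n C r ψ) (j : Fin n) :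
    AnalyticAt ℂ (fun v i => C.w i (ψ v)) (u j) :=
  AnalyticAt.pi fun i => hol_an ((h.hol _ (ball_pi hu.1 j)).hol ((C.mr i).hol _ (hu.2 j)))

theorem u_an' (h : Pc y r ψ) {u : Fin n → Cm a} (hu : u ∈ U n C r ψ) :
    AnalyticAt ℂ (fun (v : Fin n → Cm a) j i => C.w i (ψ (v j))) u :=
  AnalyticAt.pi fun j => AnalyticAt.comp (f := fun v : Fin n → Cm a => v j) (u_an h hu j)
    ((ContinuousLinearMap.proj (R := ℂ) (φ := fun _ : Fin n => Cm a) j).analyticAt u)

theorem u_det (h : Pc y r ψ) {u : Fin n → Cm a} (hu : u ∈ U n C r ψ) :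
    ENNReal.ofReal |(fderiv ℝ (fun (v : Fin n → Cm a) j i => C.w i (ψ (v j))) u).det| =
      ∏ j, ‖jw C.w ψ (u j)‖ₑ ^ 2 := by
  rw [detE_fderiv (u_an' h hu).differentiableAt,
    det_blk (φ := fun _ v i => C.w i (ψ v)) fun j => (u_an h hu j).differentiableAt,
    enorm_prd, Finset.prod_pow]
  rfl

theorem u_lsc (h : Pc y r ψ) (hy : y ∉ C.Q) {F : Pt M n → ℝ≥0∞} (hF : Ls C F) :
    LowerSemicontinuous ((U n C r ψ).indicator fun u => F (y, fun j => ψ (u j))) :=
  lsc_ind (u_open h) fun u hu c hc =>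
    (tendsto_nhdsWithin_iff.2 ⟨continuousAt_const.prodMk (continuousAt_pi.2 (u_cont h hu.1)),
      mem_of_superset ((u_open h).mem_nhds hu) fun _ hv => u_mem h hy hv⟩ :
      Tendsto (fun v : Fin n → Cm a => ((y, fun j => ψ (v j)) : Pt M n)) (𝓝 u)
        (𝓝[C.N n] (y, fun j => ψ (u j)))).eventually (hF _ (u_mem h hy hu) c hc)

end IpcH

open IpcH in
theorem smv : SMV := by
  intro a n t r r' ht hr
  have : (volume : Measure (Fin n → Cm a)).IsAddHaarMeasure := Measure.pi.isAddHaarMeasure _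
  have hρ : 0 < (r - r') / 2 := by linarith
  have h0 : volume (Metric.closedBall (0 : Fin n → Cm a) ((r - r') / 2)) ≠ 0 :=
    (Metric.measure_closedBall_pos _ _ hρ).ne'
  have h1 : volume (Metric.closedBall (0 : Fin n → Cm a) ((r - r') / 2)) ≠ ⊤ :=
    measure_closedBall_lt_top.ne
  refine ⟨_, ENNReal.inv_lt_top.2 (pos_iff_ne_zero.2 h0), fun h hh u hu => ?_⟩
  have hs : Metric.closedBall u ((r - r') / 2) ⊆ Metric.ball 0 r :=
    Metric.closedBall_subset_ball' (by have := Metric.mem_ball.1 hu; linarith)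
  have hb := bp Metric.isOpen_ball hh ht
  have h2 := ENNReal.ofReal_le_ofReal (hb.ball_mean (μ := volume) hs)
  rw [ofReal_integral_eq_lintegral_ofReal (hb.intOn (isCompact_closedBall _ _) hs)
    (ae_of_all _ fun _ => by positivity), ENNReal.ofReal_mul (by positivity), Measure.real,
    Measure.addHaar_closedBall_center, ENNReal.ofReal_toReal h1] at h2
  simp only [enr _ ht.le] at h2
  rw [mul_comm, ← div_eq_mul_inv, ENNReal.le_div_iff_mul_le (.inl h0) (.inl h1)]
  exact h2.trans (lintegral_mono_set hs)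

open IpcH in
theorem ipl : IPL := by
  intro p a n M C _ F y r ψ hF hy h
  have : (volume : Measure (Fin n → Cm a)).IsAddHaarMeasure := Measure.pi.isAddHaarMeasure _
  have key := lintegral_fib (volume : Measure (Fin n → Cm a)) (u_open (C := C) (n := n) h)
    (X := fun v j i => C.w i (ψ (v j)))
    (fun u hu => ((u_an' h hu).contDiffAt.restrict_scalars ℝ).contDiffWithinAt)
    (u_lsc h hy hF).measurable
  have hm : MeasurableSet {q : Fin n → Cm a |
      (fderiv ℝ (fun (v : Fin n → Cm a) j i => C.w i (ψ (v j))) q).det ≠ 0} :=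
    (ContinuousLinearMap.continuous_det.measurable.comp (measurable_fderiv ℝ _))
      (measurableSet_singleton 0).compl
  refine le_of_eq_of_le ?_ (key.symm.trans_le (lintegral_mono fun o => ?_))
  · change ∫⁻ u in U n C r ψ, _ = ∫⁻ u in U n C r ψ ∩ {q : Fin n → Cm a |
      (fderiv ℝ (fun (v : Fin n → Cm a) j i => C.w i (ψ (v j))) q).det ≠ 0}, _
    rw [inter_comm, ← Measure.restrict_restrict hm, ← lintegral_indicator hm]
    refine setLIntegral_congr_fun (u_open h).measurableSet fun u hu => ?_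
    rw [← u_det h hu]
    by_cases hd : (fderiv ℝ (fun (v : Fin n → Cm a) j i => C.w i (ψ (v j))) u).det = 0
    · rw [indicator_of_notMem (not_not.2 hd), hd, abs_zero, ENNReal.ofReal_zero, mul_zero]
    · rw [indicator_of_mem hd, indicator_of_mem hu, mul_comm]
  · let g : Fib (U n C r ψ) (fun v j i => C.w i (ψ (v j))) o → {x : Fin n → M.X.X //
        (y, x) ∈ C.N n ∧ ∀ j i, C.w i (x j) = o j i} := fun q =>
      ⟨fun j => ψ (q.1 j), u_mem h hy q.2.1, fun j i => congrFun (congrFun q.2.2.1 j) i⟩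
    have hg : Function.Injective g := fun q q' e => Subtype.ext (funext fun j =>
      h.inj (ball_pi q.2.1.1 j) (ball_pi q'.2.1.1 j) (congrFun (congrArg Subtype.val e) j))
    refine le_of_eq_of_le (tsum_congr fun q => ?_)
      (ENNReal.tsum_comp_le_tsum_of_injective hg fun x => F (y, x.1))
    exact indicator_of_mem q.2.1 _

open IpcH in
theorem ipc_of (hx : IPX) : Gt.IPC := by
  intro a n k r r' K hk hr' hr hK
  have hk' : (0 : ℝ) < k := Nat.cast_pos.2 hk
  have ht : (0 : ℝ) < 2 / k := by positivity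
  obtain ⟨c, hc, hs⟩ := smv a n (2 / k) r r' ht hr
  refine ⟨(c * K).toReal ^ (k / 2 : ℝ), fun p M C F y ψ hM hF hy h hI u hu hS => ?_⟩
  obtain ⟨h0, g, hg, he⟩ := hx p a n M C hM k F y r ψ hF hy h
  have hu' : u ∈ Metric.ball (0 : Fin n → Cm a) r' := by
    rw [mem_ball_zero_iff, pi_norm_lt_iff hr']
    exact fun j => mem_ball_zero_iff.1 (hu j)
  have h1 := hs g hg u hu'
  have h2 := ipl p a n M C hM (fun q => ‖F q‖ₑ ^ (2 / k : ℝ)) y r ψ
    (LscH.rpow (fun q hq => cont p a n M C F hM q hq (hF.hol q hq)) _) hy h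
  have h3 : ∫⁻ v in Metric.ball (0 : Fin n → Cm a) r, ‖g v‖ₑ ^ (2 / k : ℝ) =
      ∫⁻ v in U n C r ψ, ‖F (y, fun j => ψ (v j))‖ₑ ^ (2 / k : ℝ) * ∏ j, ‖jw C.w ψ (v j)‖ₑ ^ 2 := by
    have e : (Metric.ball (0 : Fin n → Cm a) r : Set _) =ᵐ[volume] U n C r ψ := by
      refine ae_eq_set.2 ⟨measure_mono_null (fun v hv => ?_) h0, by
        rw [sdiff_eq_empty.2 fun v hv => hv.1, measure_empty]⟩
      by_contra hn
      exact hv.2 ⟨hv.1, fun j hj => hn ⟨hv.1, j, hj⟩⟩
    rw [Measure.restrict_congr_set e]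
    refine setLIntegral_congr_fun (u_open h).measurableSet fun v hv => ?_
    rw [he v hv.1 hv.2, enorm_mul, ENNReal.mul_rpow_of_nonneg _ _ ht.le, CovH.enorm_prd,
      ← ENNReal.prod_rpow_of_nonneg ht.le]
    refine congrArg _ (Finset.prod_congr rfl fun j _ => ?_)
    rw [enorm_pow, ← ENNReal.rpow_natCast, ← ENNReal.rpow_mul, mul_div_cancel₀ _ hk'.ne',
      ENNReal.rpow_two]
  have h4 : ‖g u‖ₑ ^ (2 / k : ℝ) ≤ c * K :=
    h1.trans (by rw [h3]; exact mul_le_mul_right (h2.trans hI) c)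
  rw [← enr _ ht.le, ENNReal.ofReal_le_iff_le_toReal (ENNReal.mul_lt_top hc hK).ne] at h4
  have h5 := Real.rpow_le_rpow (by positivity) h4 (by positivity : (0 : ℝ) ≤ k / 2)
  rw [← Real.rpow_mul (norm_nonneg _), show (2 / k : ℝ) * (k / 2) = 1 by field_simp, Real.rpow_one,
    he u (Metric.ball_subset_ball hr.le hu') hS, norm_mul, norm_prod] at h5
  simpa only [norm_pow] using h5

end Vale.Agent.P281Z.Gi
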