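import Vale.Agent.P281Z.Gi.Sk2
import Vale.Agent.P281Z.Gi.Sh
import Vale.Agent.P281Z.Gi.Extb
import Vale.Agent.P281Z.Gt.FinalA
import Vale.Agent.P271.H879.Null

/-!
# P281Z, block III: the form extends to the whole piece
-/

open scoped Manifold ContDiff Topology ENNReal
open Set Filter MeasureTheory Metric
open Vale.Agent.P272.K Vale.Agent.P285.H281.FD
open Vale.Agent.P277Z (Hol jd at_chart)
open Vale.Agent.P277Z.Slc (LEq)
open Vale.Agent.P281Z.Gt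

noncomputable section

namespace Vale.Agent.P281Z.Gi

namespace IpxA

open ExtbA (an_of_hol an_jw riemE)

theorem freq_pi {n : ℕ} {E : Type} [NormedAddCommGroup E] {P : Fin n → E → Prop} {c : Fin n → E}
    (h : ∀ j, ∃ᶠ u in 𝓝 (c j), P j u) : ∃ᶠ u : Fin n → E in 𝓝 c, ∀ j, P j (u j) :=
  frequently_iff.2 fun {U} hU => by
    obtain ⟨r, hr, k⟩ := Metric.mem_nhds_iff.1 hU
    choose u h1 h2 using fun j => frequently_iff.1 (h j) (ball_mem_nhds (c j) hr)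
    exact ⟨u, k ((dist_pi_lt_iff hr).2 h1), h2⟩

/-- the extension theorem of Riemann at a general point -/
theorem riem {E : Type} [NormedAddCommGroup E] [NormedSpace ℂ E] [FiniteDimensional ℂ E] {c : E}
    {τ g : E → ℂ} {N : E → Prop} {K : ℝ} (hτ : AnalyticAt ℂ τ c) (h0 : ∃ᶠ u in 𝓝 c, τ u ≠ 0)
    (h1 : ∀ᶠ u in 𝓝 c, τ u ≠ 0 → N u) (h2 : ∀ᶠ u in 𝓝 c, N u → AnalyticAt ℂ g u ∧ ‖g u‖ ≤ K) :
    ∃ h : E → ℂ, AnalyticAt ℂ h c ∧ ∀ᶠ u in 𝓝 c, N u → h u = g u := by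
  have k : map (fun u => c + u) (𝓝 0) = 𝓝 c := map_add_left_nhds_zero c
  have k1 : ∀ u, AnalyticAt ℂ (fun u => c + u) u := fun u => analyticAt_const.add analyticAt_id
  rw [← k] at h0 h1 h2
  obtain ⟨h, h3, h4⟩ := riemE (τ := fun u => τ (c + u)) (g := fun u => g (c + u))
    (N := fun u => N (c + u)) (K := K) (hτ.fun_comp_of_eq (k1 0) (add_zero c)) h0 h1
    ((eventually_map.1 h2).mono fun u hu hN => ⟨(hu hN).1.fun_comp (k1 u), (hu hN).2⟩)
  refine ⟨fun u => h (u - c), h3.fun_comp_of_eq (analyticAt_id.sub analyticAt_const) (sub_self c), ?_⟩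
  rw [← k]
  exact eventually_map.2 (h4.mono fun u hu hN =>
    (congrArg h (add_sub_cancel_left c u)).trans (hu hN))

variable {p a n k : ℕ} {M : Fb (p + a) p} {C : NS M} {y : M.Y.X} {r : ℝ} {ψ : Cm a → M.X.X}
  {F : Pt M n → ℂ} {c : Fin n → Cm a}

/-- the bad points are nowhere dense in the piece -/
theorem freq (hM : M.Ok) (hQ : y ∉ C.Q) (h : Pc y r ψ) {u : Cm a} (hu : u ∈ ball (0 : Cm a) r) :
    ∃ᶠ v in 𝓝 u, ψ v ∉ C.S := by
  have hf := hM.fibn.hol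
  obtain ⟨F, i, hi⟩ := fib_emb (d := a) rfl hf fun x hx => (C.reg y hQ).sbm hf hM.snc hx
  obtain ⟨z₀, -⟩ := hi.ex (h.fib u hu)
  have h1 : ∀ v, ∃ z, v ∈ ball (0 : Cm a) r → i z = ψ v := fun v => by
    by_cases hv : v ∈ ball (0 : Cm a) r
    · exact (hi.ex (h.fib v hv)).imp fun _ k _ => k
    · exact ⟨z₀, fun k => (hv k).elim⟩
  choose φ hφ using h1
  have h2 : ∀ᶠ v in 𝓝 u, ψ v = i (φ v) :=
    mem_of_superset (isOpen_ball.mem_nhds hu) fun v hv => (hφ v hv).symm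
  have h3 := hi.lift_at ((h.hol u hu).cng h2)
  have h4 := imm_iff_sbm.1 (Imm.of_comp (hi.hol.at _) h3 ((h.imm u hu).cng h2))
  have h5 : ∃ᶠ z in 𝓝 (φ u), i z ∉ C.S := fun k => by
    have k1 := hi.ev.1 k
    rw [hφ u hu] at k1
    obtain ⟨x, ⟨a1, a2⟩, a3⟩ := ((mem_closure_iff_frequently.1
      (C.fib (ψ u) ((h.fib u hu).symm ▸ hQ))).and_eventually k1).exists
    obtain ⟨z, rfl⟩ := hi.ex (a1.trans (h.fib u hu))
    exact a3 z rfl a2
  exact ((h4.freq h3 h5).and_eventually h2).mono fun v hv => hv.2 ▸ hv.1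

theorem tau1 (hM : M.Ok) (hQ : y ∉ C.Q) (h : Pc y r ψ) {u : Cm a} (hu : u ∈ ball (0 : Cm a) r) :
    ∃ τ : Cm a → ℂ, AnalyticAt ℂ τ u ∧ (∃ᶠ v in 𝓝 u, τ v ≠ 0) ∧
      ∀ᶠ v in 𝓝 u, τ v ≠ 0 → ψ v ∉ C.S := by
  obtain ⟨k, g, h1, h2⟩ := C.thinS.1 (ψ u)
  have h3 := h.hol u hu
  have h4 := h3.cont.eventually h2
  obtain ⟨i, hi⟩ : ∃ i, ∃ᶠ v in 𝓝 u, g i (ψ v) ≠ 0 := by
    by_contra hc
    simp only [not_exists, not_frequently, not_not] at hc
    exact freq hM hQ h hu ((h4.and (eventually_all.2 hc)).mono fun u hu => not_not.2 (hu.1.2 hu.2))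
  exact ⟨_, an_of_hol (h3.hol (h1 i)), hi, h4.mono fun u hu k k' => k (hu.1 k' i)⟩

theorem mem (hc : c ∈ ball (0 : Fin n → Cm a) r) (j : Fin n) : c j ∈ ball (0 : Cm a) r :=
  mem_ball_zero_iff.2 ((norm_le_pi_norm c j).trans_lt (mem_ball_zero_iff.1 hc))

theorem an_pr (j : Fin n) (u : Fin n → Cm a) : AnalyticAt ℂ (fun u' : Fin n → Cm a => u' j) u :=
  analyticAt_pi_iff.1 analyticAt_id j

theorem ev_pi {P : Fin n → Cm a → Prop} (h : ∀ j, ∀ᶠ u in 𝓝 (c j), P j u) :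
    ∀ᶠ u : Fin n → Cm a in 𝓝 c, ∀ j, P j (u j) :=
  eventually_all.2 fun j => (an_pr j c).continuousAt.eventually (h j)

theorem tau (hM : M.Ok) (hQ : y ∉ C.Q) (h : Pc y r ψ) (hc : c ∈ ball (0 : Fin n → Cm a) r) :
    ∃ τ : (Fin n → Cm a) → ℂ, AnalyticAt ℂ τ c ∧ (∃ᶠ u in 𝓝 c, τ u ≠ 0) ∧
      ∀ᶠ u in 𝓝 c, τ u ≠ 0 → ∀ j, ψ (u j) ∉ C.S := by
  choose τ t1 t2 t3 using fun j => tau1 hM hQ h (mem hc j)
  refine ⟨fun u => ∏ j, τ j (u j), Finset.analyticAt_fun_prod _ fun j _ =>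
    AnalyticAt.comp (g := τ j) (f := fun u : Fin n → Cm a => u j) (t1 j) (an_pr j c),
    (freq_pi t2).mono fun u hu => Finset.prod_ne_zero_iff.2 fun j _ => hu j, ?_⟩
  filter_upwards [ev_pi t3] with u k1 k2 j
  exact k1 j (Finset.prod_ne_zero_iff.1 k2 j (Finset.mem_univ j))

theorem null (hM : M.Ok) (hQ : y ∉ C.Q) (h : Pc y r ψ) :
    volume {u ∈ ball (0 : Fin n → Cm a) r | ∃ j, ψ (u j) ∈ C.S} = 0 := by
  have : (volume : Measure (Fin n → Cm a)).IsAddHaarMeasure :=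
    Measure.pi.isAddHaarMeasure fun _ => volume
  refine measure_null_of_locally_null _ fun c hc => ?_
  obtain ⟨τ, t1, t2, t3⟩ := tau hM hQ h hc.1
  obtain ⟨ρ, h1, h2⟩ := Metric.eventually_nhds_iff_ball.1 (t1.eventually_analyticAt.and t3)
  obtain ⟨x, h3, h4⟩ := frequently_iff.1 t2 (ball_mem_nhds c h1)
  refine ⟨_, ?_, P271.H879.null_zeros volume
    (fun z hz => (h2 z hz).1.differentiableAt.differentiableWithinAt) h3 h4⟩
  filter_upwards [self_mem_nhdsWithin, nhdsWithin_le_nhds (ball_mem_nhds c h1)] with u k1 k2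
  exact ⟨k2, by_contra fun k => k1.2.elim fun j hj => (h2 u k2).2 k j hj⟩

theorem fibA (hM : M.Ok) (hQ : y ∉ C.Q) (h : Pc y r ψ) {u : Cm a} (hu : u ∈ ball (0 : Cm a) r) :
    FibA (p + a) p a M.f ψ u :=
  ⟨hM.fibn.hol.at _, h.hol u hu, (C.reg y hQ).sbm hM.fibn.hol hM.snc (h.fib u hu), h.imm u hu,
    mem_of_superset (isOpen_ball.mem_nhds hu) fun v hv => (h.fib v hv).trans (h.fib u hu).symm⟩

/-- adjunction on the piece -/
theorem jw_eq {u : Cm a} (h : FibA (p + a) p a M.f ψ u) {w : Fin a → M.X.X → ℂ}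
    (hw : ∀ i, Hol (p + a) (w i) (ψ u)) {e : Chart (p + a) M.X.X} {e' : Chart p M.Y.X}
    (he : At e (ψ u)) (he' : At e' (M.f (ψ u))) : jw w ψ u = jdw w e e' (ψ u) *
      th finSumFinEquiv M.f ψ e' (OpenPartialHomeomorph.refl _) e u := by
  have hW : HolA (p + a) a (fun y i => w i y) (ψ u) := .of_hol (AnV.pi hw).cont (at_chart _) hw
  have hc : At (OpenPartialHomeomorph.refl (Cm a)) u := at_chart u
  rw [Fnl.jdw_eq h.hf hw he he', h.spec _ hc he he', ← dfM_comp hW h.hi hc he (at_chart _), dfM,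
    LinearMap.det_toMatrix']
  rfl

theorem loc (hM : M.Ok) (hF : C.RF k F) (hQ : y ∉ C.Q) (h : Pc y r ψ)
    (hc : c ∈ ball (0 : Fin n → Cm a) r) : ∃ b : (Fin n → Cm a) → ℂ, AnalyticAt ℂ b c ∧
      ∀ᶠ u in 𝓝 c, (∀ j, ψ (u j) ∉ C.S) →
        b u = F (y, fun j => ψ (u j)) * ∏ j, jw C.w ψ (u j) ^ k := by
  obtain ⟨τ, t1, t2, t3⟩ := tau hM hQ h hc
  choose ζ z1 _ using fun j => hM.snc (ψ (c j))
  have he : ∀ j, At (chartAt (Cm (p + a)) (ψ (c j))) (ψ (c j)) := fun j => at_chart _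
  have he' := at_chart (n := p) y
  generalize chartAt (Cm p) y = e' at he'
  obtain ⟨K, hK⟩ := hF.bs (y, fun j => ψ (c j)) (fun j => h.fib _ (mem hc j)) hQ _ e' ζ he he' z1
  have h1 : ∀ j, ContinuousAt ψ (c j) := fun j => (h.hol _ (mem hc j)).cont
  have h2 : ContinuousAt (fun u : Fin n → Cm a => ((y, fun j => ψ (u j)) : Pt M n)) c :=
    continuousAt_const.prodMk (continuousAt_pi.2 fun j =>
      ContinuousAt.comp (g := ψ) (h1 j) (an_pr j c).continuousAt)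
  let Z : Fin n → Cm a → ℝ := fun j v => ∏ l, ‖ζ j l (ψ v)‖ ^ ((k : ℝ) * M.δ l)
  let T : Fin n → Cm a → ℂ := fun j => th finSumFinEquiv M.f ψ e' (OpenPartialHomeomorph.refl _)
    (chartAt (Cm (p + a)) (ψ (c j)))
  have z2 : ∀ j l, ‖ζ j l (ψ (c j))‖ ≠ 0 := fun j l k =>
    h.off _ (mem hc j) l ((z1 j l).mem.1 (norm_eq_zero.1 k))
  have z3 : ∀ j, ContinuousAt (Z j) (c j) := fun j => tendsto_finsetProd _ fun l _ =>
    (ContinuousAt.comp (g := ζ j l) (z1 j l).hol.cont (h1 j)).norm.rpow_const (.inl (z2 j l))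
  have z4 : ∀ j, Z j (c j) ≠ 0 := fun j => Finset.prod_ne_zero_iff.2 fun l _ =>
    (Real.rpow_pos_of_pos ((norm_nonneg _).lt_of_ne' (z2 j l)) _).ne'
  have z5 : ∀ j, ContinuousAt (T j) (c j) := fun j =>
    ((fibA hM hQ h (mem hc j)).hol _ (at_chart (c j)) (he j) ((h.fib _ (mem hc j)).symm ▸ he')).cont
  let D : (Fin n → Cm a) → ℝ := fun u => ∏ j, ‖T j (u j)‖ ^ k / Z j (u j)
  have z6 : ContinuousAt D c := tendsto_finsetProd _ fun j _ =>
    ContinuousAt.comp (g := fun v => ‖T j v‖ ^ k / Z j v)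
      (((z5 j).norm.pow k).div (z3 j) (z4 j)) (an_pr j c).continuousAt
  refine riem (K := max K 0 * (D c + 1)) t1 t2 t3 ?_
  filter_upwards [h2.eventually hK, isOpen_ball.mem_nhds hc,
    ev_pi fun j => (z3 j).eventually_ne (z4 j), ev_pi fun j => (h1 j).eventually (at_near (he j)),
    z6.eventually (gt_mem_nhds (lt_add_one _))] with u k1 k2 k3 k4 k5 k6
  have k7 : ((y, fun j => ψ (u j)) : Pt M n) ∈ C.N n := ⟨fun j => h.fib _ (mem k2 j), hQ, k6⟩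
  refine ⟨(anp p a n M F y (fun _ => ψ) u (fun j => h.hol _ (mem k2 j)) (fun j => mem_of_superset
    (isOpen_ball.mem_nhds (mem k2 j)) h.fib) (hF.hol _ k7)).mul
    (Finset.analyticAt_fun_prod _ fun j _ => AnalyticAt.pow (AnalyticAt.comp (g := jw C.w ψ)
      (f := fun u : Fin n → Cm a => u j) (an_jw fun i => an_of_hol ((h.hol _ (mem k2 j)).hol ((C.mr i).hol _ (k6 j))))
      (an_pr j u)) k), ?_⟩
  refine le_trans (le_of_eq ?_) (mul_le_mul ((k1 k7 fun j => h.off _ (mem k2 j)).trans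
    (le_max_left K 0)) k5.le (by positivity) (le_max_right K 0))
  rw [norm_mul, norm_prod, mul_assoc, ← Finset.prod_mul_distrib]
  refine congrArg _ (Finset.prod_congr rfl fun j _ => ?_)
  rw [jw_eq (fibA hM hQ h (mem k2 j)) (fun i => (C.mr i).hol _ (k6 j)) (k4 j)
    ((h.fib _ (mem k2 j)).symm ▸ he'), norm_pow, norm_mul, mul_pow]
  exact (congrArg _ (mul_div_cancel₀ _ (k3 j)).symm).trans (mul_assoc _ _ _).symm

end IpxA

open IpxA in
/-- **IPX** -/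
theorem ipx : IPX := by
  intro p a n M C hM k F y r ψ hF hQ h
  have h1 : ∀ c ∈ ball (0 : Fin n → Cm a) r, ∃ b, AnalyticAt ℂ b c ∧ (∀ᶠ u in 𝓝 c, b u =
      extendFrom {u | ∀ j, ψ (u j) ∉ C.S}
        (fun u => F (y, fun j => ψ (u j)) * ∏ j, jw C.w ψ (u j) ^ k) u) ∧ ((∀ j, ψ (c j) ∉ C.S) →
      b c = F (y, fun j => ψ (c j)) * ∏ j, jw C.w ψ (c j) ^ k) := fun c hc => by
    obtain ⟨b, b1, b2⟩ := loc hM hF hQ h hc
    refine ⟨b, b1, ?_, b2.self_of_nhds⟩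
    filter_upwards [b1.eventually_analyticAt, b2.eventually_nhds, isOpen_ball.mem_nhds hc]
      with u k1 k2 k3
    refine (extendFrom_eq (mem_closure_iff_frequently.2
      (freq_pi (P := fun _ v => ψ v ∉ C.S) fun j => freq hM hQ h (mem k3 j)))
      ((k1.continuousAt.tendsto.mono_left nhdsWithin_le_nhds).congr' ?_)).symm
    filter_upwards [self_mem_nhdsWithin, nhdsWithin_le_nhds k2] with v k4 k5 using k5 k4
  refine ⟨null hM hQ h, _, fun c hc => (h1 c hc).elim fun b hb => hb.1.congr hb.2.1,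
    fun c hc k1 => (h1 c hc).elim fun b hb => hb.2.1.self_of_nhds.symm.trans (hb.2.2 k1)⟩

end Vale.Agent.P281Z.Gi
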