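import Vale.Agent.P281Z.Gi.Sk

/-!
# P281Z, block III, the integral bounds: small negative powers
-/

open scoped Manifold ContDiff Topology ENNReal
open Set Filter MeasureTheory
open Vale.Agent.P272.K
open Vale.Agent.P281Z.Gt

noncomputable section

namespace Vale.Agent.P281Z.Gi

namespace Sl

theorem one {S J V K : ℝ≥0∞} {m i k : ℕ} {η : ℝ} (hm : 0 < m) (hi : 0 < i) (hη : 0 < η)
    (h0 : J ^ m * V ≠ 0) (hJ : J ≠ ⊤) (hV : V ≠ ⊤) (h : S * (J ^ m * V) ^ i ≤ K) :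
    S ^ (2 * (1 + η * (m * k)) / (m * i) : ℝ) * J ^ 2 ≤
      K ^ (2 * (1 + η * (m * k)) / (m * i) : ℝ) * V ^ (-(2 / m) : ℝ) *
        ((J ^ m * V) ^ k) ^ (-(2 * η) : ℝ) := by
  have h1 : J ^ m * V ≠ ⊤ := ENNReal.mul_ne_top (ENNReal.pow_ne_top hJ) hV
  have m0 : (m : ℝ) ≠ 0 := by positivity
  have i0 : (i : ℝ) ≠ 0 := by positivity
  have e0 : (0 : ℝ) ≤ 2 * (1 + η * (m * k)) / (m * i) := by positivity
  have a : (J ^ m * V) ^ (2 / m : ℝ) * V ^ (-(2 / m) : ℝ) = J ^ 2 := by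
    rw [ENNReal.mul_rpow_of_ne_top (ENNReal.pow_ne_top hJ) hV, mul_assoc,
      ← ENNReal.rpow_add _ _ (right_ne_zero_of_mul h0) hV, add_neg_cancel, ENNReal.rpow_zero,
      mul_one, ← ENNReal.rpow_natCast, ← ENNReal.rpow_mul, mul_div_cancel₀ _ m0, ENNReal.rpow_two]
  have b : ((J ^ m * V) ^ i) ^ (2 * (1 + η * (m * k)) / (m * i) : ℝ) *
      ((J ^ m * V) ^ k) ^ (-(2 * η) : ℝ) = (J ^ m * V) ^ (2 / m : ℝ) := by
    rw [← ENNReal.rpow_natCast _ i, ← ENNReal.rpow_natCast _ k, ← ENNReal.rpow_mul,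
      ← ENNReal.rpow_mul, ← ENNReal.rpow_add _ _ h0 h1]
    congr 1
    field_simp
    ring
  refine le_trans (le_of_eq ?_) (mul_le_mul_left (mul_le_mul_left (ENNReal.rpow_le_rpow h e0) _) _)
  rw [ENNReal.mul_rpow_of_nonneg _ _ e0, mul_right_comm, mul_assoc (S ^ _), b, mul_assoc, a]

theorem enorm_prod {ι : Type} [Fintype ι] (f : ι → ℂ) : ‖∏ i, f i‖ₑ = ∏ i, ‖f i‖ₑ := by
  simp only [enorm_eq_nnnorm, nnnorm_prod, ENNReal.ofNNReal_finsetProd]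

theorem ptw {n a m i k : ℕ} {S J : Fin n → ℂ} {u : Fin n → Fin a → ℂ} {d : Fin n → Fin a → ℕ}
    {B h : ℂ} {K : Fin n → ℝ} {η : ℝ} (hm : 0 < m) (hi : 0 < i) (hη : 0 < η)
    (h0 : ∀ j, J j ^ m * ∏ l, u j l ^ d j l ≠ 0) (h1 : h = B * ∏ j, (J j ^ m * ∏ l, u j l ^ d j l) ^ k)
    (h2 : ∀ j, ‖S j‖ * ‖J j ^ m * ∏ l, u j l ^ d j l‖ ^ i ≤ K j) :
    (∏ j, ‖S j‖ₑ ^ (2 * (1 + η * (m * k)) / (m * i) : ℝ)) * ‖B‖ₑ ^ (-(2 * η) : ℝ) * ∏ j, ‖J j‖ₑ ^ 2 ≤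
      (∏ j, ENNReal.ofReal (K j) ^ (2 * (1 + η * (m * k)) / (m * i) : ℝ)) *
        ((∏ j, ∏ l, ‖u j l‖ₑ ^ (-(2 * (d j l / m)) : ℝ)) * ‖h‖ₑ ^ (-(2 * η) : ℝ)) := by
  have e : ∀ j, ‖J j ^ m * ∏ l, u j l ^ d j l‖ₑ = ‖J j‖ₑ ^ m * ∏ l, ‖u j l‖ₑ ^ d j l := fun j => by
    simp only [enorm_mul, enorm_pow, enorm_prod]
  have b4 : ∀ j, ∏ l, ‖u j l‖ₑ ^ (-(2 * (d j l / m)) : ℝ) =
      (∏ l, ‖u j l‖ₑ ^ d j l) ^ (-(2 / m) : ℝ) := fun j => by
    rw [← ENNReal.prod_rpow_of_ne_top fun i _ => ENNReal.pow_ne_top enorm_ne_top]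
    refine Finset.prod_congr rfl fun i _ => ?_
    rw [← ENNReal.rpow_natCast, ← ENNReal.rpow_mul]
    congr 1
    ring
  rw [h1, enorm_mul, ENNReal.mul_rpow_of_ne_top enorm_ne_top enorm_ne_top, enorm_prod,
    ← ENNReal.prod_rpow_of_ne_top fun i _ => enorm_ne_top, mul_right_comm,
    ← Finset.prod_mul_distrib, mul_comm (‖B‖ₑ ^ _), ← mul_assoc _ _ (‖B‖ₑ ^ _),
    ← mul_assoc _ _ (‖B‖ₑ ^ _), ← Finset.prod_mul_distrib, ← Finset.prod_mul_distrib]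
  refine mul_le_mul_left (Finset.prod_le_prod' fun j _ => ?_) _
  have b5 := ENNReal.ofReal_le_ofReal (h2 j)
  rw [ENNReal.ofReal_mul (norm_nonneg _), ENNReal.ofReal_pow (norm_nonneg _),
    ofReal_norm, ofReal_norm, e] at b5
  rw [b4, enorm_pow, e]
  exact (one hm hi hη (e j ▸ enorm_ne_zero.2 (h0 j)) enorm_ne_top
    (ENNReal.prod_ne_top fun i _ => ENNReal.pow_ne_top enorm_ne_top) b5).trans_eq (mul_assoc _ _ _)

variable {p a m : ℕ} {M : Fb (p + a) p}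

theorem sel_mem {n : ℕ} {C : NS M} {q : Pt M n} (h : q ∈ C.N n) (j : Fin n) :
    sel (fun _ : Fin 1 => j) q ∈ C.N 1 := ⟨fun _ => h.1 j, h.2.1, fun _ => h.2.2 j⟩

theorem loc (hB : BSP) (hE : EXTB) (hT : LCT) (D : AD M m) (hS : Std M m) (Z : Pcs D.toNS m)
    {y : M.Y.X} (hy : y ∉ D.Q) (hN : Nzf D.toNS (D.B 0) y) (κ : Fin D.n₁ → Fin (a + 1))
    {x : Fin D.n₁ → M.X.X} (hx : Fp (y, x)) : ∃ W ∈ 𝓝 (y, (0 : Fin D.n₁ → Cm a)),
      ∀ᶠ η in 𝓝[>] (0 : ℝ), Z.J x W (gB D κ η) y < ⊤ := by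
  have hm : 0 < m := two_pos.trans_le hS.two
  have fx : ∀ j, M.f (x j) = y := hx
  have hQ : ∀ j, M.f (x j) ∉ D.Q := fun j => fx j ▸ hy
  obtain ⟨h, h1, h2⟩ := hE p a m _ _ M _ Z _ (y, x) hS.ok (D.rfB 0) hx hy
  have h3 : ∀ᶠ u in 𝓝 (0 : Fin D.n₁ → Cm a), ∀ j, Z.ψ (x j) y (u j) ∉ D.S →
      wt D.toNS m (Z.ψ (x j) y) (Z.d (x j)) (u j) ≠ 0 := eventually_all.2 fun j => by
    have c : Tendsto (fun u : Fin D.n₁ → Cm a => (y, u j)) (𝓝 0) (𝓝 (M.f (x j), 0)) :=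
      fx j ▸ (continuous_const.prodMk (continuous_apply j)).continuousAt
    exact (c.eventually (Z.hol _ (hQ j))).mono fun _ k => k.2.2
  have h4 : ∃ᶠ u in 𝓝 0, h u ≠ 0 := fun k => by
    obtain ⟨ε, e0, e1⟩ := Metric.eventually_nhds_iff.1 (k.and (h2.and h3))
    obtain ⟨q, ⟨q1, q2, q3⟩, q4⟩ := ((hN (y, x) hx rfl).and_eventually (eventually_all.2 fun j =>
      ((continuous_apply j).comp continuous_snd).continuousAt.eventually (Z.cov _ (hQ j) _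
        (prod_mem_nhds univ_mem (Metric.ball_mem_nhds 0 e0))))).exists
    choose u u1 u2 using q4
    have e : Z.pq x y u = q := Prod.ext q2.symm (funext fun j => by
      have : Z.ψ (x j) (M.f (q.2 j)) (u j) = q.2 j := u2 j
      rwa [show M.f _ = y from (q1.1 j).trans q2] at this)
    obtain ⟨b1, b2, b3⟩ := e1 (y := u) ((dist_pi_lt_iff e0).2 fun j => (u1 j).2)
    have b4 : Z.pq x y u ∈ D.N _ := e ▸ q1
    exact b1 ((b2 b4).trans_ne (mul_ne_zero (e ▸ q3) (Finset.prod_ne_zero_iff.2 fun j _ =>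
      pow_ne_zero _ (b3 j (b4.2.2 j)))))
  obtain ⟨U, hU, h5⟩ := hT _ a (fun j i => Z.d (x j) i / m) h (fun j i =>
    (div_lt_one (Nat.cast_pos.2 hm)).2 (Nat.cast_lt.2 (Z.lt _ (hQ j) i))) h1 h4
  choose K hK using fun j => hB p a m 1 _ M _ Z _ (y, fun _ => x j) (D.rfs (κ j)).bs
    (fun _ => fx j) hy
  have h6 := eventually_all.2 fun j => (show Tendsto (fun u : Fin D.n₁ → Cm a =>
    (y, fun _ : Fin 1 => u j)) (𝓝 0) (𝓝 (y, 0)) from (continuous_const.prodMk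
      (continuous_pi fun _ => continuous_apply j)).continuousAt).eventually (hK j)
  obtain ⟨O, o1, o2, o3⟩ := eventually_nhds_iff.1
    (h1.eventually_analyticAt.and (h2.and (h3.and (h6.and hU))))
  refine ⟨Prod.snd ⁻¹' O, continuous_snd.continuousAt (o2.mem_nhds o3), ?_⟩
  filter_upwards [h5, self_mem_nhdsWithin] with η k1 k2
  have e0 : (0 : ℝ) ≤ 2 * (1 + η * (m * D.k₁)) / (m * D.i₁) := by
    have : 0 < η := k2
    positivity
  have c0 : ∏ j, ENNReal.ofReal (K j) ^ (2 * (1 + η * (m * D.k₁)) / (m * D.i₁) : ℝ) ≠ ⊤ :=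
    ENNReal.prod_ne_top fun j _ => ENNReal.rpow_ne_top_of_nonneg e0 ENNReal.ofReal_ne_top
  refine lt_of_le_of_lt ?_ (ENNReal.mul_lt_top c0.lt_top k1)
  rw [← lintegral_const_mul' _ _ c0]
  refine (setLIntegral_mono_ae (AEMeasurable.mono_set (t := O) (fun u k => k.1) ?_)
    (.of_forall fun u k => ?_)).trans (lintegral_mono_set fun u k => (o1 u k.1).2.2.2.2)
  · refine AEMeasurable.const_mul (AEMeasurable.mul (Measurable.aemeasurable (by fun_prop))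
      (AEMeasurable.pow_const (AEMeasurable.enorm ?_) _)) _
    exact ContinuousOn.aemeasurable (fun u k => (o1 u k).1.continuousAt.continuousWithinAt)
      o2.measurableSet
  obtain ⟨-, b1, b2, b3, -⟩ := o1 u k.1
  exact ptw hm D.pos.2.2.2.2.2 k2 (fun j => b2 j (k.2.2.2 j)) (b1 k.2) fun j => by
    have := b3 j (sel_mem k.2 j)
    rwa [Fin.prod_univ_one] at this

end Sl

open Sl

theorem ls_gB (hC : CONT) (hL : LSM) {p a m : ℕ} {M : Fb (p + a) p} (D : AD M m) (hM : M.Ok)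
    (κ : Fin D.n₁ → Fin (a + 1)) (η : ℝ) : Ls D.toNS (gB D κ η) := by
  have b : ∀ (F : Pt M D.n₁ → ℂ) (r : ℝ), ContinuousOn F (D.N _) →
      LowerSemicontinuousOn (fun q => ‖F q‖ₑ ^ r) (D.N _) := fun F r h =>
    (ENNReal.continuous_rpow_const.comp_continuousOn h.enorm).lowerSemicontinuousOn
  refine hL _ _ _ _ ?_ (b _ _ fun q h => hC p a _ M _ _ hM q h ((D.rfB 0).hol q h))
  induction (Finset.univ : Finset (Fin D.n₁)) using Finset.induction_on with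
  | empty => exact lowerSemicontinuousOn_const
  | insert j s hj ih =>
    simp only [Finset.prod_insert hj]
    refine hL _ _ _ _ (b _ _ fun q h => ?_) ih
    exact (hC p a _ M _ _ hM _ (sel_mem h j) ((D.rfs _).hol _ (sel_mem h j))).comp
      (continuous_fst.prodMk (continuous_pi fun _ =>
        (continuous_apply j).comp continuous_snd)).continuousWithinAt fun _ k => sel_mem k j

theorem small_of (hP : PIECE) (hB : BSP) (hA : COVA) (hC : CONT) (hL : LSM) (hE : EXTB)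
    (hT : LCT) : SMALL := fun p a m M D hS y hy hN κ => by
  obtain ⟨Z⟩ := hP p a m M D.toNS hS
  choose! W h1 h2 using fun x hx => loc hB hE hT D hS Z hy hN κ (x := x) hx
  obtain ⟨T, h3, h4⟩ := hA p a m _ M _ Z y W hS.ok hy h1
  filter_upwards [(eventually_all_finset T).2 fun x hx => h2 x (h3 x hx)] with η k
  exact (h4.self_of_nhds _ (ls_gB hC hL D hS.ok κ η)).trans_lt (ENNReal.sum_lt_top.2 k)

end Vale.Agent.P281Z.Gi
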