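import Vale.Agent.P281Z.Gi.Rstr
import Vale.Agent.P281Z.Gi.Sh
import Vale.Agent.P281Z.Gi.Lsc
import Vale.Agent.P281Z.Gi.Small

/-!
# P281Z, block III: the integral bounds
-/

open scoped Manifold ContDiff Topology ENNReal
open Set Filter MeasureTheory
open Vale.Agent.P272.K Vale.Agent.P285.H281.FD
open Vale.Agent.P277Z (Hol Mer Nz gen jd)
open Vale.Agent.P277Z.Slc (lin Ind LEq Snc ForW)
open Vale.Agent.P281Z.Gt

noncomputable section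

namespace Vale.Agent.P281Z.Gi

namespace Mn

/-- the theorem of Baire for lower semicontinuous functions -/
theorem baire {E α β : Type} [TopologicalSpace E] [BaireSpace E] [Countable β] {O : Set E}
    (hO : IsOpen O) (hne : O.Nonempty) (J : β → α → E → ℝ≥0∞)
    (hJ : ∀ b i, LowerSemicontinuousOn (J b i) O) (K : β → ℝ≥0∞)
    (h : ∀ c ∈ O, ∃ b, ∀ i, J b i c ≤ K b) :
    ∃ b, ∃ c ∈ O, ∀ᶠ c' in 𝓝 c, ∀ i, J b i c' ≤ K b := by
  have hc : ∀ b, IsClosed {c | c ∈ O → ∀ i, J b i c ≤ K b} := fun b =>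
    isOpen_compl_iff.1 (isOpen_iff_mem_nhds.2 fun c hc => by
      obtain ⟨h1, i, h2⟩ : c ∈ O ∧ ∃ i, K b < J b i c := by simpa using hc
      have := hJ b i c h1 _ h2
      rw [hO.nhdsWithin_eq h1] at this
      filter_upwards [this, hO.mem_nhds h1] with c' a b' d using (d b' i).not_gt a)
  obtain ⟨b₀, -⟩ := h _ hne.some_mem
  obtain ⟨c, h1, h2⟩ := (dense_iUnion_interior_of_closed hc (eq_univ_of_forall fun c =>
    mem_iUnion.2 (by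
      by_cases k : c ∈ O
      · exact (h c k).imp fun _ a _ => a
      · exact ⟨b₀, fun a => (k a).elim⟩))).inter_open_nonempty O hO hne
  obtain ⟨b, h3⟩ := mem_iUnion.1 h2
  refine ⟨b, c, h1, ?_⟩
  filter_upwards [mem_interior_iff_mem_nhds.1 h3, hO.mem_nhds h1] with c' a d using a d

variable {p a m n v : ℕ} {M : Fb (p + a) p} {C : NS M} {z : Fin v → M.Y.X → ℂ} {β β' : Type}

theorem fz_map {F : Pt M n → β} (h : Fz C z F) (Φ : β → β') : Fz C z fun q => Φ (F q) :=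
  fun k T _ _ _ _ _ γ t h1 h2 h3 h4 => (h k T γ t h1 h2 h3 h4).mono fun _ e => congrArg Φ e

theorem fz_pair {F : Pt M n → β} {F' : Pt M n → β'} (h : Fz C z F) (h' : Fz C z F') :
    Fz C z fun q => (F q, F' q) := fun k T _ _ _ _ _ γ t h1 h2 h3 h4 =>
  ((h k T γ t h1 h2 h3 h4).and (h' k T γ t h1 h2 h3 h4)).mono fun _ e => Prod.ext e.1 e.2

theorem fz_pi {ι : Type} [Finite ι] {F : ι → Pt M n → β} (h : ∀ i, Fz C z (F i)) :
    Fz C z fun q i => F i q := fun k T _ _ _ _ _ γ t h1 h2 h3 h4 =>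
  (eventually_all.2 fun i => h i k T γ t h1 h2 h3 h4).mono fun _ e => funext e

theorem fz_sel {F : Pt M 1 → β} (h : Fz C z F) (j : Fin n) :
    Fz C z fun q : Pt M n => F (sel (fun _ => j) q) := fun k T _ _ _ _ _ γ t h1 h2 h3 h4 =>
  h k T (fun s => sel (fun _ => j) (γ s)) t ⟨h1.b, fun _ => h1.x j, h1.fp.mono fun _ e _ => e j⟩
    (Sl.sel_mem h2 j) h3 fun _ => h4 j

theorem fz_s (D : AD M m) (h : D.Fl (D.s 0)) (i : Fin (a + 1)) : Fz D.toNS D.z (D.s i) := by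
  refine Fin.cases h (fun i k T _ _ _ _ _ γ t h1 h2 h3 h4 => ?_) i
  filter_upwards [h k T γ t h1 h2 h3 h4, h4 0 i, h1.fp,
    h1.b.cont.eventually (D.thinQ.closed.isOpen_compl.mem_nhds h2.2.1), eventually_all.2 fun j =>
      (h1.x j).cont.eventually (D.thinS.closed.isOpen_compl.mem_nhds (h2.2.2 j))] with s a b c d e
  rw [D.rat i _ ⟨c, d, e⟩, D.rat i _ h2, a, b]

theorem fz_gB (D : AD M m) (h : D.Flat) (κ : Fin D.n₁ → Fin (a + 1)) (η : ℝ) :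
    Fz D.toNS D.z (gB D κ η) :=
  fz_map (fz_pair (fz_pi fun j => fz_sel (fz_s D h.s (κ j)) j) h.B) fun c =>
    (∏ j, ‖c.1 j‖ₑ ^ (2 * (1 + η * (m * D.k₁)) / (m * D.i₁) : ℝ)) * ‖c.2‖ₑ ^ (-(2 * η) : ℝ)

theorem ls_rf (hM : M.Ok) {k : ℕ} {F : Pt M n → ℂ} (h : C.RF k F) (r : ℝ) :
    Ls C fun q => ‖F q‖ₑ ^ r := LscH.rpow (fun q hq => cont p a n M C F hM q hq (h.hol q hq)) r

theorem neP (D : AD M m) {y : M.Y.X} (hy : y ∉ D.Q) : ∃ x, (y, x) ∈ D.N _ ∧ D.P (y, x) ≠ 0 := by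
  obtain ⟨φ, θ, h1, -, ⟨x, h2, h3⟩, h4⟩ := D.span y hy
  have k : (y, fun j => x (finProdFinEquiv.symm j).2) ∈ D.N (D.c₀ * D.ρ) :=
    ⟨fun _ => h2.1 _, hy, fun _ => h2.2.2 _⟩
  refine ⟨_, k, ?_⟩
  rw [h4 _ k]
  refine mul_ne_zero h1 (Finset.prod_ne_zero_iff.2 fun g _ => ?_)
  simpa only [grp, sel, Equiv.symm_apply_apply] using h3

theorem neB (D : AD M m) {y : M.Y.X} (hy : y ∉ D.Q) (h : Nzf D.toNS (D.B 0) y) :
    ∃ q ∈ D.N D.n₁, q.1 = y ∧ D.B 0 q ≠ 0 :=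
  let ⟨x, hx⟩ := (D.conn y hy).1
  (h (y, fun _ => x) (fun _ => hx) rfl).exists

end Mn

open Mn

theorem parti_of (hF : FINI) (hSm : SMALL) (hN : NZB) (hC : CNST) (hL : LEAF) : PARTI := by
  intro p a m M D hS hD
  have hM := hS.ok
  have hm : (2 : ℝ) ≤ m := by exact_mod_cast hS.two
  obtain ⟨Q₁, t1, c1⟩ := hC p a M D.toNS hM
  obtain ⟨Q₂, t2, c2⟩ := hN p a m _ _ M D.toNS (D.B 0) hS (D.rfB 0) D.neB
  have hB : Big D.toNS (D.Q ∪ (Q₁ ∪ Q₂)) := ⟨hM, D.thinQ.union (t1.union t2), subset_union_left⟩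
  obtain ⟨O, ι, _, σ, o1, o2, ⟨i₀⟩, o3, o4, o5⟩ :=
    hL p D.v M.Y D.Q _ D.z D.thinQ hB.thin hB.sub D.zmr D.zind
  have q0 : ∀ i, ∀ c ∈ O, σ i c ∉ D.Q := fun i c hc k => (o4 i c hc).1 (.inl k)
  have q1 : ∀ i, ∀ c ∈ O, σ i c ∉ Q₁ := fun i c hc k => (o4 i c hc).1 (.inr (.inl k))
  have q2 : ∀ i, ∀ c ∈ O, Nzf D.toNS (D.B 0) (σ i c) := fun i c hc =>
    c2 _ (q0 i c hc) fun k => (o4 i c hc).1 (.inr (.inr k))
  have ls : ∀ n (F : Pt M n → ℝ≥0∞), Ls D.toNS F → ∀ i,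
      LowerSemicontinuousOn (fun c => D.I F (σ i c)) O := fun n F h i c hc r hr =>
    (o3 i c hc).eventually ((lsc_of sh p a n M _ F hM h).2.1 (σ i c) r hr)
  let η : ℕ → ℚ := fun j => 1 / ((j + m * D.k₁ : ℕ) + 1)
  let J : ℕ × ℕ → ι × (Unit ⊕ Fin (a + 1) ⊕ (Fin D.n₁ → Fin (a + 1))) → Cm D.v → ℝ≥0∞ :=
    fun b i c => Sum.elim (fun _ => D.I (fun q => ‖D.P q‖ₑ ^ (2 / m : ℝ)) (σ i.1 c))
      (Sum.elim (fun t => D.I (fun q => ‖D.s t q‖ₑ ^ (2 / (m * D.i₁) : ℝ)) (σ i.1 c))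
        fun κ => D.I (gB D κ (η b.1)) (σ i.1 c)) i.2
  obtain ⟨b, c₀, hc₀, hb⟩ := baire o1 o2 J (by
    rintro b ⟨i, _ | t | κ⟩
    · exact ls _ _ (ls_rf hM D.rfP _) i
    · exact ls _ _ (ls_rf hM (D.rfs t) _) i
    · exact ls _ _ (ls_gB cont lsm D hM κ _) i) (fun b => b.2) fun c hc => by
    have ht : Tendsto (fun j => (η j : ℝ)) atTop (𝓝[>] 0) := by
      refine tendsto_nhdsWithin_iff.2 ⟨?_, .of_forall fun j => ?_⟩
      · simpa [η, Function.comp_def] using (tendsto_one_div_add_atTop_nhds_zero_nat (𝕜 := ℝ)).comp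
          (tendsto_add_atTop_nat (m * D.k₁))
      · simp only [η, mem_Ioi]
        positivity
    obtain ⟨j, hj⟩ := (ht.eventually (eventually_all.2 fun i => eventually_all.2 fun κ =>
      hSm p a m M D hS _ (q0 i c hc) (q2 i c hc) κ)).exists
    have f : ∀ i, J (j, 0) i c ≠ ⊤ := by
      rintro ⟨i, _ | t | κ⟩
      · obtain ⟨K, h1, h2⟩ := hF p a m _ 1 M _ D.P hS one_pos ((mul_one m).symm ▸ D.rfP) _
          (q0 i c hc)
        have := h2.self_of_nhds.trans_lt h1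
        rw [Nat.cast_one, mul_one] at this
        exact this.ne
      · obtain ⟨K, h1, h2⟩ := hF p a m _ _ M _ _ hS D.pos.2.2.2.2.2 (D.rfs t) _ (q0 i c hc)
        exact (h2.self_of_nhds.trans_lt h1).ne
      · exact (hj i κ).ne
    obtain ⟨K, hK⟩ := ENNReal.exists_nat_gt (ENNReal.sum_ne_top.2 fun i (_ : i ∈ Finset.univ) => f i)
    exact ⟨(j, K), fun i => (Finset.single_le_sum (f := fun i => J (j, 0) i c)
      (fun _ _ => zero_le) (Finset.mem_univ i)).trans hK.le⟩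
  have hp : ∀ i, ∃ K : ℕ, ∀ᶠ c in 𝓝 c₀,
      (K : ℝ≥0∞)⁻¹ < D.I (fun q => ‖D.P q‖ₑ ^ (2 / m : ℝ)) (σ i c) := fun i => by
    obtain ⟨x, h1, h2⟩ := neP D (q0 i c₀ hc₀)
    obtain ⟨K, hK⟩ := ENNReal.exists_inv_nat_lt ((lsc_of sh p a _ M _ _ hM
      (ls_rf hM D.rfP (2 / m : ℝ))).2.2 _ h1 (by
        simpa [ENNReal.rpow_eq_zero_iff] using fun h => (h2 h).elim))
    exact ⟨K, o1.nhdsWithin_eq hc₀ ▸ ls _ _ (ls_rf hM D.rfP _) i c₀ hc₀ _ hK⟩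
  choose K hK using hp
  obtain ⟨r, hr, hball⟩ := Metric.mem_nhds_iff.1
    ((hb.and (eventually_all.2 hK)).and (o1.mem_nhds hc₀))
  obtain ⟨q, n1, n2, n3⟩ := neB D (q0 i₀ c₀ hc₀) (q2 i₀ c₀ hc₀)
  have key : ∀ y ∉ D.Q ∪ (Q₁ ∪ Q₂), (fun j => D.z j y) ∈ Metric.ball c₀ r → ∃ i, ∀ n
      (F : Pt M n → ℝ≥0∞), Fz D.toNS D.z F → hB.ns.I F y = D.I F (σ i fun j => D.z j y) := by
    intro y hy hz
    obtain ⟨i, hi⟩ := o5 y (fun k => hy (.inl k)) (hball hz).2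
    exact ⟨i, fun n F h => (hB.I_eq F hy).trans (c1 n _ D.z F h y (fun k => hy (.inl k)) _
      (q0 i _ (hball hz).2) (fun k => hy (.inr (.inl k))) (q1 i _ (hball hz).2) hi)⟩
  have le1 : (b.2 : ℝ≥0∞) ≤ (b.2 + ∑ i, K i : ℕ) := by exact_mod_cast Nat.le_add_right _ _
  have le2 : ∀ i, (K i : ℝ≥0∞) ≤ (b.2 + ∑ i, K i : ℕ) := fun i => by
    exact_mod_cast (Finset.single_le_sum (fun _ _ => Nat.zero_le _) (Finset.mem_univ i)).trans
      (Nat.le_add_left _ _)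
  refine ⟨⟨hB.ad ⟨q, n1, n2 ▸ (o4 i₀ c₀ hc₀).1, n3⟩, Metric.ball c₀ r, η b.1,
    (b.2 + ∑ i, K i : ℕ), ⟨σ i₀ c₀, (o4 i₀ c₀ hc₀).1, ?_⟩, Metric.isOpen_ball,
    Metric.isBounded_ball, ⟨by simp only [η]; positivity, ?_⟩, ENNReal.natCast_lt_top _,
    fun y hy hz => ?_, fun y hy hz t => ?_, fun y hy hz κ => ?_⟩⟩
  · exact (congrArg (· ∈ Metric.ball c₀ r) (o4 i₀ c₀ hc₀).2).mpr (Metric.mem_ball_self hr)
  · change 1 + η b.1 * (m * D.k₁) ≤ m * D.i₁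
    have h1 : η b.1 * (m * D.k₁) ≤ 1 := by
      simp only [η]
      rw [one_div, inv_mul_le_iff₀ (by positivity)]
      push_cast
      linarith [(Nat.cast_nonneg b.1 : (0 : ℚ) ≤ _)]
    have h2 : (2 : ℚ) ≤ m := by exact_mod_cast hS.two
    have h3 : (1 : ℚ) ≤ D.i₁ := by exact_mod_cast D.pos.2.2.2.2.2
    nlinarith
  · obtain ⟨i, hi⟩ := key y hy hz
    have := hi _ _ (fz_map hD.P fun c => ‖c‖ₑ ^ (2 / m : ℝ))
    exact ⟨this.trans_le (((hball hz).1.1 (i, .inl ())).trans le1),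
      ((ENNReal.inv_le_inv.2 (le2 i)).trans ((hball hz).1.2 i).le).trans_eq this.symm⟩
  · obtain ⟨i, hi⟩ := key y hy hz
    exact (hi _ _ (fz_map (fz_s D hD.s t) fun c => ‖c‖ₑ ^ (2 / (m * D.i₁) : ℝ))).trans_le
      (((hball hz).1.1 (i, .inr (.inl t))).trans le1)
  · obtain ⟨i, hi⟩ := key y hy hz
    exact (hi _ _ (fz_gB D hD κ _)).trans_le (((hball hz).1.1 (i, .inr (.inr κ))).trans le1)

end Vale.Agent.P281Z.Gi
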