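import Vale.Agent.P281Z.Gi.Sk2
import Vale.Agent.P281Z.Gi.Sh

/-!
# P281Z, block III: the sums over the sheets are measurable, the calculus of the fibre integrals
-/

open scoped Manifold ContDiff Topology ENNReal
open Set Filter MeasureTheory
open Vale.Agent.P272.K
open Vale.Agent.P281Z.Gt

noncomputable section

namespace Vale.Agent.P281Z.Gi

namespace MsH

theorem meas_ind {X Y : Type} [TopologicalSpace X] [MeasurableSpace X] [OpensMeasurableSpace X]
    [TopologicalSpace Y] [MeasurableSpace Y] [BorelSpace Y] {s : Set X} {G : X → Y}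
    {Φ : Y → ℝ≥0∞} (hs : MeasurableSet s) (hG : ContinuousOn G s) (hΦ : Measurable Φ) :
    Measurable (s.indicator fun x => Φ (G x)) := by
  refine measurable_of_restrict_of_restrict_compl hs ?_ ?_
  · exact (congrArg Measurable (funext fun x => (indicator_of_mem x.2 _).symm)).mp
      (hΦ.comp (continuousOn_iff_continuous_domRestrict.1 hG).measurable)
  · exact (congrArg Measurable (funext fun x => (indicator_of_notMem x.2 _).symm)).mp
      measurable_const

theorem meas_sum {X Y : Type} [TopologicalSpace X] [SecondCountableTopology X] [TopologicalSpace Y]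
    {N : Set X} {φ : X → Y} (h : ∀ q ∈ N, ∃ (U : Set X) (V : Set Y) (g : Y → X), IsOpen U ∧ q ∈ U ∧
      IsOpen V ∧ ContinuousOn g V ∧ (∀ q' ∈ N, q' ∈ U → φ q' ∈ V ∧ g (φ q') = q') ∧
        ∀ c ∈ V, g c ∈ N ∧ φ (g c) = c) {u : X → ℝ≥0∞}
    (hu : @Measurable _ _ (borel X) _ (N.indicator u)) :
    @Measurable _ _ (borel Y) _ fun c => ∑' q : {q // q ∈ N ∧ φ q = c}, u q := by
  borelize X Y
  rcases N.eq_empty_or_nonempty with rfl | hN
  · exact (congrArg Measurable (funext fun c =>
      (ENNReal.tsum_eq_zero.2 fun q => q.2.1.elim).symm)).mp measurable_const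
  have := hN.to_subtype
  choose U V g h1 h2 h3 h4 h5 h6 using fun q : N => h q q.2
  obtain ⟨T, t1, t2⟩ := TopologicalSpace.isOpen_iUnion_countable U h1
  obtain ⟨f, hf⟩ := countable_iff_exists_subset_range.1 t1
  have hA := fun k => MeasurableSet.disjointed (fun k => (h1 (f k)).measurableSet) k
  refine (congrArg Measurable (funext fun c => ?_)).mp (Measurable.tsum (L := .unconditional _) fun k =>
    meas_ind (h3 (f k)).measurableSet (h4 (f k)) (hu.indicator (hA k)))
  have a : ∀ q : {q // q ∈ N ∧ φ q = c}, u q =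
      ∑' k, (disjointed (fun k => U (f k)) k).indicator (N.indicator u) q := fun q => by
    rw [← congrFun (indicator_iUnion_of_pairwise_disjoint _ (disjoint_disjointed _) _) q.1,
      iUnion_disjointed, indicator_of_mem, indicator_of_mem q.2.1]
    obtain ⟨i, b1, b2⟩ := mem_iUnion₂.1 (t2.ge (mem_iUnion.2 ⟨⟨q.1, q.2.1⟩, h2 _⟩))
    obtain ⟨k, rfl⟩ := hf b1
    exact mem_iUnion.2 ⟨k, b2⟩
  rw [tsum_congr a, ENNReal.tsum_comm]
  refine tsum_congr fun k => ?_
  by_cases hc : c ∈ V (f k)
  · rw [indicator_of_mem hc, tsum_eq_single ⟨_, h6 _ c hc⟩ fun q b => indicator_of_notMem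
      (fun d => b (Subtype.ext ((h5 _ _ q.2.1 (disjointed_subset _ k d)).2.symm.trans
        (congrArg _ q.2.2)))) _]
  · rw [indicator_of_notMem hc]
    exact (ENNReal.tsum_eq_zero.2 fun q : {q // q ∈ N ∧ φ q = c} => indicator_of_notMem
      (fun d => hc (q.2.2 ▸ (h5 _ _ q.2.1 (disjointed_subset _ k d)).1)) _).symm

variable {p a n : ℕ} {M : Fb (p + a) p} (C : NS M)

theorem meas_N (hM : M.Ok) : @MeasurableSet _ (borel _) (C.N n) := by
  borelize (Pt M n)
  have c : ∀ j, Continuous fun q : Pt M n => q.2 j := fun j =>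
    (continuous_apply j).comp continuous_snd
  have a1 : IsClosed {q : Pt M n | Fp q} := by
    simp only [Fp, Set.ofPred_forall]
    exact isClosed_iInter fun j => isClosed_eq (hM.fibn.hol.cont.comp (c j)) continuous_fst
  have a2 : IsOpen {q : Pt M n | ∀ j, q.2 j ∉ C.S} := by
    simp only [Set.ofPred_forall]
    exact isOpen_iInter_of_finite fun j => C.thinS.closed.isOpen_compl.preimage (c j)
  exact a1.measurableSet.inter
    ((C.thinQ.closed.isOpen_compl.preimage continuous_fst).inter a2).measurableSet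

end MsH

open MsH

theorem msm : MSM := by
  intro p a n M C hM u hu
  have key : @Measurable _ _ (borel _) _ fun c : M.Y.X × (Fin n → Cm a) => Sm C u c.1 c.2 := by
    refine (congrArg _ (funext fun c => ?_)).mp (meas_sum (N := C.N n)
      (φ := fun q => (q.1, fun j i => C.w i (q.2 j))) (fun q hq => ?_) hu)
    · refine ((Equiv.ofBijective (fun x : {x : Fin n → M.X.X //
        (c.1, x) ∈ C.N n ∧ ∀ j i, C.w i (x j) = c.2 j i} => (⟨(c.1, x.1), x.2.1,
          Prod.ext rfl (funext fun j => funext (x.2.2 j))⟩ : {q : Pt M n // q ∈ C.N n ∧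
            (q.1, fun j i => C.w i (q.2 j)) = c})) ⟨fun x y k => Subtype.ext (congrArg Prod.snd
              (congrArg Subtype.val k)), ?_⟩).tsum_eq fun q => u q.1).symm
      rintro ⟨q, b, rfl⟩
      exact ⟨⟨q.2, b, fun _ _ => rfl⟩, rfl⟩
    choose γ hγ using fun j => sh p a M C hM _ (hq.2.2 j)
    have e : ∀ q ∈ C.N n, ∀ j, fw C (q.2 j) = (q.1, fun i => C.w i (q.2 j)) := fun q b j =>
      Prod.ext (b.1 j) rfl
    have c1 : ∀ j, Continuous fun c : M.Y.X × (Fin n → Cm a) => (c.1, c.2 j) := fun j =>
      continuous_fst.prodMk ((continuous_apply j).comp continuous_snd)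
    have c2 : ∀ j, Continuous fun q : Pt M n => q.2 j := fun j =>
      (continuous_apply j).comp continuous_snd
    obtain ⟨V, v1, v2, v3⟩ := eventually_nhds_iff.1 ((eventually_all.2 fun j =>
      ((c1 j).tendsto (q.1, fun j i => C.w i (q.2 j))).eventually
        (e q hq j ▸ (hγ j).cont.and (hγ j).rinv)).and
      (continuous_fst.continuousAt.eventually (C.thinQ.closed.isOpen_compl.mem_nhds hq.2.1)))
    have c3 : ContinuousAt (fun q : Pt M n => (q.1, fun j i => C.w i (q.2 j))) q :=
      continuousAt_fst.prodMk (continuousAt_pi.2 fun j => continuousAt_pi.2 fun i =>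
        ((C.mr i).hol _ (hq.2.2 j)).cont.comp (f := fun q : Pt M n => q.2 j) (c2 j).continuousAt)
    obtain ⟨U, u1, u2, u3⟩ := eventually_nhds_iff.1 ((c3.eventually (v2.mem_nhds v3)).and
      (eventually_all.2 fun j => (c2 j).continuousAt.eventually (hγ j).linv))
    refine ⟨U, V, fun c => (c.1, fun j => γ j (c.1, c.2 j)), u2, u3, v2,
      fun c b => (continuousAt_fst.prodMk (continuousAt_pi.2 fun j =>
        ((v1 c b).1 j).1.comp (f := fun c : M.Y.X × (Fin n → Cm a) => (c.1, c.2 j))
          (c1 j).continuousAt)).continuousWithinAt,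
      fun q' b1 b2 => ⟨(u1 q' b2).1, Prod.ext rfl (funext fun j => ?_)⟩, fun c b =>
      ⟨⟨fun j => congrArg Prod.fst ((v1 c b).1 j).2.1, (v1 c b).2, fun j => ((v1 c b).1 j).2.2⟩,
        Prod.ext rfl (funext fun j => congrArg Prod.snd ((v1 c b).1 j).2.1)⟩⟩
    exact (congrArg (γ j) (e q' b1 j).symm).trans ((u1 q' b2).2 j)
  refine ⟨key, fun y => ?_⟩
  borelize (M.Y.X × (Fin n → Cm a))
  exact key.comp (Continuous.prodMk_right y).measurable

theorem icalc_of (h : IPR) : ICALC := by
  intro p a n M C hM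
  refine ⟨(h p a n M C hM).1, (h p a n M C hM).2, fun u u' h1 _ y => ?_, fun u c h1 y => ?_,
    fun u u' y k => lintegral_mono fun o => ENNReal.tsum_le_tsum fun x => k _ x.2.1,
    fun ι _ F O Φ h1 h2 h3 => ?_, fun n' σ u h1 => ?_⟩
  · rw [I_eq, I_eq, I_eq, ← lintegral_add_left ((msm p a n M C hM u h1).2 y)]
    exact lintegral_congr fun o => ENNReal.tsum_add
  · rw [I_eq, I_eq, ← lintegral_const_mul _ ((msm p a n M C hM u h1).2 y)]
    exact lintegral_congr fun o => ENNReal.tsum_mul_left (a := c y)
  · have m := meas_N (n := n) C hM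
    unfold NS.Ms
    borelize (Pt M n)
    refine (congrArg Measurable (funext fun q => ?_)).mp (meas_ind (G := fun q i => F i q)
      (m.inter (h1.preimage continuous_fst).measurableSet) (continuousOn_pi.2 fun i q b =>
        (cont p a n M C _ hM q b.1 (h3 i q b.1 b.2)).mono inter_subset_left) h2)
    rw [← indicator_indicator]
    exact congrFun (indicator_congr fun q _ => rfl) q
  · have m := meas_N (n := n) C hM
    unfold NS.Ms at h1 ⊢
    borelize (Pt M n) (Pt M n')
    have c : Continuous (sel σ : Pt M n → Pt M n') :=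
      continuous_fst.prodMk (continuous_pi fun j => (continuous_apply _).comp continuous_snd)
    exact (congrArg Measurable (indicator_congr fun q b => indicator_of_mem
      (show sel σ q ∈ C.N n' from ⟨fun _ => b.1 _, b.2.1, fun _ => b.2.2 _⟩) u)).mp
      ((h1.comp c.measurable).indicator m)

end Vale.Agent.P281Z.Gi
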