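import Vale.Agent.P281Z.Gi.Sk

/-!
# P281Z, block III: the bad set of the base can be enlarged
-/

open scoped Manifold ContDiff Topology ENNReal
open Set Filter MeasureTheory
open Vale.Agent.P272.K Vale.Agent.P285.H281.FD
open Vale.Agent.P277Z (Hol Mer Nz gen jd)
open Vale.Agent.P277Z.Slc (lin Ind LEq Snc ForW)
open Vale.Agent.P281Z.Gt

noncomputable section

namespace Vale.Agent.P281Z.Gi

variable {p a n : ℕ} {M : Fb (p + a) p}

/-- a bigger bad set -/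
structure Big (C : NS M) (Q' : Set M.Y.X) : Prop where
  ok : M.Ok
  thin : Thin p Q'
  sub : C.Q ⊆ Q'

namespace Big

variable {C : NS M} {Q' : Set M.Y.X} (h : Big C Q')

/-- the nice structure with the bigger bad set -/
def ns : NS M where
  Q := Q'
  S := C.S ∪ M.f ⁻¹' Q'
  w := C.w
  thinQ := h.thin
  thinS := C.thinS.union (haveI := h.ok.conn; h.thin.pre_surj h.ok.fibn.hol h.ok.fibn.surj)
  reg y hy := C.reg y fun k => hy (h.sub k)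
  conn y hy := C.conn y fun k => hy (h.sub k)
  sub _ hx := .inr hx
  klt l hl x hx := h.sub (C.klt l hl x hx)
  offG x hx := C.offG x fun k => hx (.inl k)
  mr i := ⟨fun x hx => (C.mr i).hol x fun k => hx (.inl k), (C.mr i).mer⟩
  et x hx := C.et x fun k => hx (.inl k)
  fib x hx := by
    refine closure_mono ?_ (C.fib x fun k => hx (h.sub k))
    rintro x' ⟨k1, k2⟩
    exact ⟨k1, fun c => c.elim k2 fun c' => hx (k1 ▸ c')⟩

theorem notS {x : M.X.X} (hx : M.f x ∉ Q') : x ∉ h.ns.S ↔ x ∉ C.S :=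
  ⟨fun k c => k (.inl c), fun k c => c.elim k hx⟩

theorem mem {q : Pt M n} : q ∈ h.ns.N n ↔ q ∈ C.N n ∧ q.1 ∉ Q' :=
  ⟨fun k => ⟨⟨k.1, fun c => k.2.1 (h.sub c), fun j c => k.2.2 j (.inl c)⟩, k.2.1⟩,
    fun k => ⟨k.1.1, k.2, fun j => (h.notS (k.1.1 j ▸ k.2)).2 (k.1.2.2 j)⟩⟩

theorem I_eq (F : Pt M n → ℝ≥0∞) {y : M.Y.X} (hy : y ∉ Q') : h.ns.I F y = C.I F y :=
  lintegral_congr fun _ => (Equiv.subtypeEquivRight fun _ =>
    and_congr_left' (h.mem.trans (and_iff_left hy))).tsum_eq fun x => F (y, x.1)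

theorem rf {k : ℕ} {F : Pt M n → ℂ} (hF : C.RF k F) : h.ns.RF k F where
  hol q hq := hF.hol q (h.mem.1 hq).1
  mer d T _ _ _ _ _ γ t h1 h2 := hF.mer d T γ t h1 (h2.mono fun _ c => (h.mem.1 c).1)
  bs q h1 h2 e e' ζ a b c :=
    let ⟨K, hK⟩ := hF.bs q h1 (fun c => h2 (h.sub c)) e e' ζ a b c
    ⟨K, hK.mono fun _ d d' => d (h.mem.1 d').1⟩

theorem fs {k : ℕ} {y : M.Y.X} (hy : y ∉ Q') {g : M.X.X → ℂ} (hg : h.ns.FS k y g) :
    C.FS k y g where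
  hol d T _ _ _ _ _ γ t h1 h2 h3 :=
    hg.hol d T γ t h1 h2 ((h.notS (h2.self_of_nhds.symm ▸ hy)).2 h3)
  bd x hx e e' ζ a b c := by
    obtain ⟨K, hK⟩ := hg.bd x hx e e' ζ a b c
    refine ⟨K, ?_⟩
    filter_upwards [hK, mem_inf_of_right (mem_principal_self _)] with q d d' d''
    exact d (h.mem.2 ⟨d'', (show q.1 = y from d').symm ▸ hy⟩)

theorem le {k : ℕ} {F : Pt M n → ℂ} {y : M.Y.X} (hy : y ∉ Q') {ψ : Cm a → M.X.X} {r K : ℝ}
    (hψ : ∀ u ∈ Metric.ball (0 : Cm a) r, M.f (ψ u) = y) :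
    h.ns.Le k F y ψ r K ↔ C.Le k F y ψ r K :=
  forall_congr' fun _ => forall_congr' fun b => imp_congr_left
    (forall_congr' fun j => h.notS ((hψ _ (b j)).symm ▸ hy))

end Big

/-- the algebraic data with the bigger bad set -/
def Big.ad {m : ℕ} {D : AD M m} {Q' : Set M.Y.X} (h : Big D.toNS Q')
    (hB : ∃ q ∈ D.N D.n₁, q.1 ∉ Q' ∧ D.B 0 q ≠ 0) : AD M m where
  toNS := h.ns
  v := D.v
  z := D.z
  ρ := D.ρ
  c₀ := D.c₀
  n₁ := D.n₁
  k₁ := D.k₁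
  c₁ := D.c₁
  i₁ := D.i₁
  P := D.P
  B := D.B
  s := D.s
  pos := D.pos
  cnt := D.cnt
  zmr j := ⟨fun y hy => (D.zmr j).hol y fun k => hy (h.sub k), (D.zmr j).mer⟩
  zind :=
    let ⟨y, _, k⟩ := D.zind
    ((h.thin.freq y).and_eventually k.near).exists
  rfP := h.rf D.rfP
  rfB j := h.rf (D.rfB j)
  rfs i := h.rf (D.rfs i)
  span y hy :=
    let ⟨φ, θ, h1, h2, ⟨x, h3, h4⟩, h5⟩ := D.span y fun k => hy (h.sub k)
    ⟨φ, θ, h1, fun g hg => (h2 g (h.fs hy hg)).imp fun _ k x hx => k x fun c => hx (.inl c),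
      ⟨x, h.mem.2 ⟨h3, hy⟩, h4⟩, fun x hx => h5 x (h.mem.1 hx).1⟩
  rel j q hq := D.rel j q (h.mem.1 hq).1
  neB :=
    let ⟨q, h1, h2, h3⟩ := hB
    ⟨q, h.mem.2 ⟨h1, h2⟩, h3⟩
  rat i q hq := D.rat i q (h.mem.1 hq).1
  nes q hq := D.nes q (h.mem.1 hq).1
  blk r r' h1 h2 :=
    let ⟨A, hA⟩ := D.blk r r' h1 h2
    ⟨A, fun y hy ψ hψ K hK k j =>
      (h.le hy fun u hu => hψ.fib u (Metric.ball_subset_ball h2.le hu)).2
        (hA y (fun c => hy (h.sub c)) ψ hψ K hK ((h.le hy hψ.fib).1 k) j)⟩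

end Vale.Agent.P281Z.Gi
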