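import Vale.Agent.P281Z.Gt.SkT
import Vale.Agent.P281Z.Mf.Loc

/-!
# P281Z, block III, the integral bounds: definitions and rows
-/

open scoped Manifold ContDiff Topology ENNReal
open Set Filter MeasureTheory
open Vale.Agent.P272.K Vale.Agent.P285.H281.FD
open Vale.Agent.P277Z (Hol Mer Nz gen jd)
open Vale.Agent.P277Z.Slc (lin Ind LEq Snc ForW)
open Vale.Agent.P281Z.Gt

noncomputable section

namespace Vale.Agent.P281Z.Gi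

section defs

variable {p a n : ℕ} {M : Fb (p + a) p}

/-- the coordinates `(f, w)` -/
def fw (C : NS M) (x : M.X.X) : M.Y.X × Cm a := (M.f x, fun i => C.w i x)

/-- a local inverse of `(f, w)` at `x` -/
structure Sh (C : NS M) (x : M.X.X) (γ : M.Y.X × Cm a → M.X.X) : Prop where
  val : γ (fw C x) = x
  cont : ∀ᶠ c in 𝓝 (fw C x), ContinuousAt γ c
  rinv : ∀ᶠ c in 𝓝 (fw C x), fw C (γ c) = c ∧ γ c ∉ C.S
  linv : ∀ᶠ x' in 𝓝 x, γ (fw C x') = x'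
  hol : ∀ᶠ c in 𝓝 (fw C x), ForW fun k T _ _ => ∀ (y : T → M.Y.X) (o : T → Cm a) (t : T),
    HolA k p y t → AnV k o t → (y t, o t) = c → HolA k (p + a) (fun s => γ (y s, o s)) t

/-- `F` is lower semicontinuous on the nice points -/
def Ls (C : NS M) (F : Pt M n → ℝ≥0∞) : Prop := LowerSemicontinuousOn F (C.N n)

/-- the sum over the sheets -/
def Sm (C : NS M) (F : Pt M n → ℝ≥0∞) (y : M.Y.X) (o : Fin n → Cm a) : ℝ≥0∞ :=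
  ∑' x : {x : Fin n → M.X.X // (y, x) ∈ C.N n ∧ ∀ j i, C.w i (x j) = o j i}, F (y, x.1)

theorem I_eq (C : NS M) (F : Pt M n → ℝ≥0∞) (y : M.Y.X) : C.I F y = ∫⁻ o, Sm C F y o := rfl

/-- the weight of a piece -/
def wt (C : NS M) (m : ℕ) (ψ : Cm a → M.X.X) (d : Fin a → ℕ) (u : Cm a) : ℂ :=
  jw C.w ψ u ^ m * ∏ i, u i ^ d i

/-- coordinates on the fibres near each point, adapted to the boundary -/
structure Pcs (C : NS M) (m : ℕ) where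
  ψ : M.X.X → M.Y.X → Cm a → M.X.X
  d : M.X.X → Fin a → ℕ
  lt : ∀ x, M.f x ∉ C.Q → ∀ i, d x i < m
  val : ∀ x, M.f x ∉ C.Q → ψ x (M.f x) 0 = x
  cont : ∀ x, M.f x ∉ C.Q →
    ContinuousAt (fun c : M.Y.X × Cm a => ψ x c.1 c.2) (M.f x, 0)
  hol : ∀ x, M.f x ∉ C.Q → ∀ᶠ c in 𝓝 (M.f x, (0 : Cm a)), HolA a (p + a) (ψ x c.1) c.2 ∧
    M.f (ψ x c.1 c.2) = c.1 ∧ (ψ x c.1 c.2 ∉ C.S → wt C m (ψ x c.1) (d x) c.2 ≠ 0)
  cov : ∀ x, M.f x ∉ C.Q → ∀ W ∈ 𝓝 (M.f x, (0 : Cm a)), ∀ᶠ x' in 𝓝 x,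
    ∃ u, (M.f x', u) ∈ W ∧ ψ x (M.f x') u = x'
  cmp : ∀ x, M.f x ∉ C.Q → ∃ (ζ : M.κ → M.X.X → ℂ) (K : ℝ), (∀ l, LEq (p + a) (M.G l) x (ζ l)) ∧
    ∀ᶠ c in 𝓝 (M.f x, (0 : Cm a)), ψ x c.1 c.2 ∉ C.S → ‖wt C m (ψ x c.1) (d x) c.2‖ ≤
      K * (‖jdw C.w (chartAt (Cm (p + a)) x) (chartAt (Cm p) (M.f x)) (ψ x c.1 c.2)‖ ^ m *
        ∏ l, ‖ζ l (ψ x c.1 c.2)‖ ^ ((m : ℝ) * M.δ l))

/-- the point of the fibre power with the coordinates `u` -/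
def Pcs.pq {C : NS M} {m : ℕ} (Z : Pcs C m) (x : Fin n → M.X.X) (y : M.Y.X) (u : Fin n → Cm a) :
    Pt M n := (y, fun j => Z.ψ (x j) y (u j))

/-- the integral over a piece of the fibre power -/
def Pcs.J {C : NS M} {m : ℕ} (Z : Pcs C m) (x : Fin n → M.X.X)
    (W : Set (M.Y.X × (Fin n → Cm a))) (F : Pt M n → ℝ≥0∞) (y : M.Y.X) : ℝ≥0∞ :=
  ∫⁻ u in {u | (y, u) ∈ W ∧ Z.pq x y u ∈ C.N n},
    F (Z.pq x y u) * ∏ j, ‖jw C.w (Z.ψ (x j) y) (u j)‖ₑ ^ 2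

/-- `F` is locally a function of `z` and of the coordinates `w` -/
def Fz {v : ℕ} {β : Type} (C : NS M) (z : Fin v → M.Y.X → ℂ) (F : Pt M n → β) : Prop :=
  ForW fun k T _ _ => ∀ (γ : T → Pt M n) (t : T), Tm k γ t → γ t ∈ C.N n →
    (∀ j, ∀ᶠ s in 𝓝 t, z j (γ s).1 = z j (γ t).1) →
    (∀ j i, ∀ᶠ s in 𝓝 t, C.w i ((γ s).2 j) = C.w i ((γ t).2 j)) → ∀ᶠ s in 𝓝 t, F (γ s) = F (γ t)

/-- `y` and `y'` are on the same leaf of `z` -/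
def Lk {v : ℕ} {Y : Mf p} (Q : Set Y.X) (z : Fin v → Y.X → ℂ) (y y' : Y.X) : Prop :=
  ∃ (k : ℕ) (V : Mf k) (g : V.X → Y.X) (t t' : V.X), ConnectedSpace V.X ∧ HolM k p g ∧ g t = y ∧
    g t' = y' ∧ ∀ s, g s ∉ Q → ∀ j, z j (g s) = z j y

/-- the integrand of `intB` -/
def gB {m : ℕ} (D : AD M m) (κ : Fin D.n₁ → Fin (a + 1)) (η : ℝ) (q : Pt M D.n₁) : ℝ≥0∞ :=
  (∏ j, ‖D.s (κ j) (sel (fun _ => j) q)‖ₑ ^ (2 * (1 + η * (m * D.k₁)) / (m * D.i₁) : ℝ)) *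
    ‖D.B 0 q‖ₑ ^ (-(2 * η) : ℝ)

end defs

/-- **SH**: sheets exist -/
def SH : Prop := ∀ (p a : ℕ) (M : Fb (p + a) p) (C : NS M), M.Ok → ∀ x ∉ C.S, ∃ γ, Sh C x γ

/-- **ANP**: holomorphic functions on the fibre power, in slot by slot coordinates -/
def ANP : Prop := ∀ (p a n : ℕ) (M : Fb (p + a) p) (F : Pt M n → ℂ) (y : M.Y.X)
  (ψ : Fin n → Cm a → M.X.X) (u : Fin n → Cm a), (∀ j, HolA a (p + a) (ψ j) (u j)) →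
  (∀ j, ∀ᶠ u' in 𝓝 (u j), M.f (ψ j u') = y) → HolT F (y, fun j => ψ j (u j)) →
  AnalyticAt ℂ (fun u' : Fin n → Cm a => F (y, fun j => ψ j (u' j))) u

/-- **CONT**: holomorphic functions on the nice points are continuous -/
def CONT : Prop := ∀ (p a n : ℕ) (M : Fb (p + a) p) (C : NS M) (F : Pt M n → ℂ), M.Ok →
  ∀ q ∈ C.N n, HolT F q → ContinuousWithinAt F (C.N n) q

/-- **LSC**: semicontinuity and positivity of the fibre integrals -/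
def LSC : Prop := ∀ (p a n : ℕ) (M : Fb (p + a) p) (C : NS M) (F : Pt M n → ℝ≥0∞), M.Ok → Ls C F →
  LowerSemicontinuous (fun c : M.Y.X × (Fin n → Cm a) => Sm C F c.1 c.2) ∧
    LowerSemicontinuous (C.I F) ∧ ∀ q ∈ C.N n, F q ≠ 0 → C.I F q.1 ≠ 0

/-- **LSM**: products of lower semicontinuous functions -/
def LSM : Prop := ∀ (X : Type) [TopologicalSpace X] (s : Set X) (f g : X → ℝ≥0∞),
  LowerSemicontinuousOn f s → LowerSemicontinuousOn g s →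
    LowerSemicontinuousOn (fun x => f x * g x) s

/-- **PIECE**: adapted coordinates exist -/
def PIECE : Prop := ∀ (p a m : ℕ) (M : Fb (p + a) p) (C : NS M), Std M m → Nonempty (Pcs C m)

/-- **BSP**: the pole bound in adapted coordinates -/
def BSP : Prop := ∀ (p a m n k : ℕ) (M : Fb (p + a) p) (C : NS M) (Z : Pcs C m) (F : Pt M n → ℂ)
  (q : Pt M n), C.BS (m * k) F → Fp q → q.1 ∉ C.Q →
  ∃ K : ℝ, ∀ᶠ c in 𝓝 (q.1, (0 : Fin n → Cm a)), Z.pq q.2 c.1 c.2 ∈ C.N n →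
    ‖F (Z.pq q.2 c.1 c.2)‖ * ∏ j, ‖wt C m (Z.ψ (q.2 j) c.1) (Z.d (q.2 j)) (c.2 j)‖ ^ k ≤ K

/-- **COVA**: the fibre integral is bounded by finitely many integrals over pieces -/
def COVA : Prop := ∀ (p a m n : ℕ) (M : Fb (p + a) p) (C : NS M) (Z : Pcs C m) (y₀ : M.Y.X)
  (W : (Fin n → M.X.X) → Set (M.Y.X × (Fin n → Cm a))), M.Ok → y₀ ∉ C.Q →
  (∀ x, Fp (y₀, x) → W x ∈ 𝓝 (y₀, (0 : Fin n → Cm a))) →
  ∃ T : Finset (Fin n → M.X.X), (∀ x ∈ T, Fp (y₀, x)) ∧ ∀ᶠ y in 𝓝 y₀,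
    ∀ F : Pt M n → ℝ≥0∞, Ls C F → C.I F y ≤ ∑ x ∈ T, Z.J x (W x) F y

/-- **MONI**: integrals of monomials -/
def MONI : Prop := ∀ (n a : ℕ) (t : Fin n → Fin a → ℝ), (∀ j i, t j i < 1) →
  ∫⁻ u in Metric.ball (0 : Fin n → Cm a) 1, ∏ j, ∏ i, ‖u j i‖ₑ ^ (-(2 * t j i)) < ⊤

/-- **FINI**: the fibre integrals are locally bounded -/
def FINI : Prop := ∀ (p a m n k : ℕ) (M : Fb (p + a) p) (C : NS M) (F : Pt M n → ℂ), Std M m →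
  0 < k → C.RF (m * k) F → ∀ y ∉ C.Q, ∃ K < ⊤, ∀ᶠ y' in 𝓝 y,
    C.I (fun q => ‖F q‖ₑ ^ (2 / (m * k) : ℝ)) y' ≤ K

/-- **LCT**: small negative powers are integrable against the monomials -/
def LCT : Prop := ∀ (n a : ℕ) (t : Fin n → Fin a → ℝ) (h : (Fin n → Cm a) → ℂ), (∀ j i, t j i < 1) →
  AnalyticAt ℂ h 0 → (∃ᶠ u in 𝓝 0, h u ≠ 0) → ∃ U ∈ 𝓝 (0 : Fin n → Cm a), ∀ᶠ η in 𝓝[>] (0 : ℝ),
    ∫⁻ u in U, (∏ j, ∏ i, ‖u j i‖ₑ ^ (-(2 * t j i))) * ‖h u‖ₑ ^ (-(2 * η)) < ⊤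

/-- **EXTB**: the form `F`, in adapted coordinates, extends to a holomorphic function -/
def EXTB : Prop := ∀ (p a m n k : ℕ) (M : Fb (p + a) p) (C : NS M) (Z : Pcs C m) (F : Pt M n → ℂ)
  (q : Pt M n), M.Ok → C.RF (m * k) F → Fp q → q.1 ∉ C.Q →
  ∃ h : (Fin n → Cm a) → ℂ, AnalyticAt ℂ h 0 ∧ ∀ᶠ u in 𝓝 (0 : Fin n → Cm a),
    Z.pq q.2 q.1 u ∈ C.N n →
      h u = F (Z.pq q.2 q.1 u) * ∏ j, wt C m (Z.ψ (q.2 j) q.1) (Z.d (q.2 j)) (u j) ^ k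

/-- `F` does not vanish identically on an open piece of the fibre over `y` -/
def Nzf {p a n : ℕ} {M : Fb (p + a) p} (C : NS M) (F : Pt M n → ℂ) (y : M.Y.X) : Prop :=
  ∀ q : Pt M n, Fp q → q.1 = y → ∃ᶠ q' in 𝓝 q, q' ∈ C.N n ∧ q'.1 = y ∧ F q' ≠ 0

/-- **SMALL**: the integral with a small negative power is finite -/
def SMALL : Prop := ∀ (p a m : ℕ) (M : Fb (p + a) p) (D : AD M m), Std M m → ∀ y ∉ D.Q,
  Nzf D.toNS (D.B 0) y → ∀ κ, ∀ᶠ η in 𝓝[>] (0 : ℝ), D.I (gB D κ η) y < ⊤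

/-- **NZB**: a non zero form is non zero on the general fibres -/
def NZB : Prop := ∀ (p a m n k : ℕ) (M : Fb (p + a) p) (C : NS M) (F : Pt M n → ℂ), Std M m →
  C.RF k F → (∃ q ∈ C.N n, F q ≠ 0) → ∃ Q₁, Thin p Q₁ ∧ ∀ y ∉ C.Q, y ∉ Q₁ → Nzf C F y

/-- **COVW**: the coordinates `w` are coverings, off analytic sets -/
def COVW : Prop := ∀ (p a : ℕ) (M : Fb (p + a) p) (C : NS M), M.Ok →
  ∃ (Q₁ : Set M.Y.X) (B : Cm a → Set M.Y.X), Thin p Q₁ ∧ (∀ o, An p (B o)) ∧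
    (∀ y ∉ Q₁, ∀ᵐ o, y ∉ B o) ∧ ∀ o, ∀ y ∉ B o, ∃ (d : ℕ) (σ : Fin d → M.Y.X → M.X.X),
      (∀ i, HolA p (p + a) (σ i) y) ∧ ∀ᶠ y' in 𝓝 y, Function.Injective (fun i => σ i y') ∧
        range (fun i => σ i y') = {x | x ∉ C.S ∧ fw C x = (y', o)}

/-- **CNST**: integrals of flat functions are constant on the leaves -/
def CNST : Prop := ∀ (p a : ℕ) (M : Fb (p + a) p) (C : NS M), M.Ok → ∃ Q₁, Thin p Q₁ ∧
  ∀ (n v : ℕ) (z : Fin v → M.Y.X → ℂ) (F : Pt M n → ℝ≥0∞), Fz C z F → ∀ y ∉ C.Q, ∀ y' ∉ C.Q,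
    y ∉ Q₁ → y' ∉ Q₁ → Lk C.Q z y y' → C.I F y = C.I F y'

/-- **LEAF**: finitely many local sections meet all the leaves -/
def LEAF : Prop := ∀ (p v : ℕ) (Y : Mf p) (Q Q₀ : Set Y.X) (z : Fin v → Y.X → ℂ), Thin p Q →
  Thin p Q₀ → Q ⊆ Q₀ → (∀ j, Mr p Q (z j)) → (∃ y ∉ Q, Ind p z y) →
  ∃ (O : Set (Cm v)) (ι : Type) (_ : Fintype ι) (σ : ι → Cm v → Y.X), IsOpen O ∧ O.Nonempty ∧
    Nonempty ι ∧ (∀ i, ContinuousOn (σ i) O) ∧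
    (∀ i, ∀ c ∈ O, σ i c ∉ Q₀ ∧ (fun j => z j (σ i c)) = c) ∧
    ∀ y ∉ Q, (fun j => z j y) ∈ O → ∃ i, Lk Q z y (σ i fun j => z j y)

end Vale.Agent.P281Z.Gi
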