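import Vale.Agent.P281Z.Gi.Sk
import Vale.Agent.P281Z.Gt.SkB

/-!
# P281Z, block III, the calculus of the fibre integrals: rows
-/

open scoped Manifold ContDiff Topology ENNReal
open Set Filter MeasureTheory
open Vale.Agent.P272.K Vale.Agent.P285.H281.FD
open Vale.Agent.P277Z (Hol Mer Nz gen jd)
open Vale.Agent.P277Z.Slc (lin Ind LEq Snc ForW)
open Vale.Agent.P281Z.Gt

noncomputable section

namespace Vale.Agent.P281Z.Gi

/-- **MSM**: the sums over the sheets are measurable -/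
def MSM : Prop := ForC fun _ a n M C => ∀ u : Pt M n → ℝ≥0∞, C.Ms u →
  @Measurable _ _ (borel _) _ (fun c : M.Y.X × (Fin n → Cm a) => Sm C u c.1 c.2) ∧
    ∀ y, Measurable (Sm C u y)

/-- **IPR**: products and permutations -/
def IPR : Prop := ForC fun _ _ n M C =>
  (∀ s (u : Fin s → Pt M n → ℝ≥0∞), (∀ g, C.Ms (u g)) → ∀ y ∉ C.Q,
    C.I (fun q : Pt M (s * n) => ∏ g, u g (grp g q)) y = ∏ g, C.I (u g) y) ∧
  ∀ (σ : Equiv.Perm (Fin n)) (u : Pt M n → ℝ≥0∞) y, C.I (fun q => u (sel σ q)) y = C.I u y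

/-- **SMV**: the sub mean value inequality -/
def SMV : Prop := ∀ (a n : ℕ) (t r r' : ℝ), 0 < t → r' < r → ∃ c < ⊤,
  ∀ h : (Fin n → Cm a) → ℂ, AnalyticOnNhd ℂ h (Metric.ball 0 r) →
    ∀ u ∈ Metric.ball (0 : Fin n → Cm a) r',
      ‖h u‖ₑ ^ t ≤ c * ∫⁻ v in Metric.ball (0 : Fin n → Cm a) r, ‖h v‖ₑ ^ t

/-- **IPX**: the form extends to the whole piece -/
def IPX : Prop := ForC fun _ a n M C => ∀ (k : ℕ) (F : Pt M n → ℂ) (y : M.Y.X) (r : ℝ)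
  (ψ : Cm a → M.X.X), C.RF k F → y ∉ C.Q → Pc y r ψ →
  volume {u ∈ Metric.ball (0 : Fin n → Cm a) r | ∃ j, ψ (u j) ∈ C.S} = 0 ∧
    ∃ h : (Fin n → Cm a) → ℂ, AnalyticOnNhd ℂ h (Metric.ball 0 r) ∧
      ∀ u ∈ Metric.ball (0 : Fin n → Cm a) r, (∀ j, ψ (u j) ∉ C.S) →
        h u = F (y, fun j => ψ (u j)) * ∏ j, jw C.w ψ (u j) ^ k

/-- **IPL**: the integral over a piece is at most the fibre integral -/
def IPL : Prop := ForC fun _ a n M C => ∀ (F : Pt M n → ℝ≥0∞) (y : M.Y.X) (r : ℝ)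
  (ψ : Cm a → M.X.X), Ls C F → y ∉ C.Q → Pc y r ψ →
  ∫⁻ u in {u ∈ Metric.ball (0 : Fin n → Cm a) r | ∀ j, ψ (u j) ∉ C.S},
    F (y, fun j => ψ (u j)) * ∏ j, ‖jw C.w ψ (u j)‖ₑ ^ 2 ≤ C.I F y

end Vale.Agent.P281Z.Gi
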